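import Mathlib
import Crest.Prelude.Def_EditDistance
import Crest.Agent.R210.Edit

/-!
# Binary code with synchronisation: the edit distance of coded words dominates
`length - LCS` of the words.
Codeword: `1 1 0 b₁ 0 b₂ 0 ... b_h 0` (length `2h+3`); "11" occurs only at starts of codewords.
-/

set_option autoImplicit false
open Crest.GeometryTopology.EditDistance

namespace Crest.Agent.R210

namespace CodeAux

/-- No nonempty suffix of `w` can be continued to a word starting with `11`. -/
def Good (w : List Bool) : Prop :=
  ∀ s z : List Bool, s <:+ w → s ≠ [] → ¬ [true, true] <+: s ++ z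

theorem good_nil : Good [] := by
  intro s z hs hne
  exact absurd (List.suffix_nil.mp hs) hne

theorem Good.cons {x : Bool} {w : List Bool} (hx : ∀ z, ¬ [true, true] <+: (x :: w) ++ z)
    (hw : Good w) : Good (x :: w) := by
  intro s z hs hne
  rcases List.suffix_cons_iff.mp hs with rfl | h
  · exact hx z
  · exact hw s z h hne

theorem Good.of_suffix {w w' : List Bool} (h : Good w) (hs : w' <:+ w) : Good w' :=
  fun s z hs' hne => h s z (hs'.trans hs) hne

theorem prefix_append_cases {p l z : List Bool} (h : p <+: l ++ z) :
    p <+: l ∨ ∃ z0, p = l ++ z0 ∧ z0 <+: z := by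
  rcases le_total p.length l.length with hle | hle
  · exact Or.inl (List.prefix_of_prefix_length_le h (List.prefix_append l z) hle)
  · right
    obtain ⟨z0, hz0⟩ := List.prefix_of_prefix_length_le (List.prefix_append l z) h hle
    refine ⟨z0, hz0.symm, ?_⟩
    rw [← hz0] at h
    exact (List.prefix_append_right_inj l).mp h

def body (c : List Bool) : List Bool := c.flatMap fun b => [b, false]

theorem good_body (c : List Bool) : Good (body c) := by
  induction c with
  | nil => exact good_nil
  | cons b c ih =>
    have : body (b :: c) = b :: false :: body c := by simp [body]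
    rw [this]
    refine Good.cons ?_ (Good.cons ?_ ih)
    · intro z h
      simp [List.cons_prefix_cons] at h
    · intro z h
      simp [List.cons_prefix_cons] at h

def word (c : List Bool) : List Bool := true :: true :: false :: body c

theorem length_body (c : List Bool) : (body c).length = 2 * c.length := by
  induction c with
  | nil => simp [body]
  | cons b c ih =>
    have : body (b :: c) = b :: false :: body c := by simp [body]
    rw [this]
    simp [ih]
    ring

theorem body_injective : Function.Injective body := by
  intro c
  induction c with
  | nil =>
    intro c' h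
    cases c' with
    | nil => rfl
    | cons b c' => simp [body] at h
  | cons b c ih =>
    intro c' h
    cases c' with
    | nil => simp [body] at h
    | cons b' c' =>
      have h1 : body (b :: c) = b :: false :: body c := by simp [body]
      have h2 : body (b' :: c') = b' :: false :: body c' := by simp [body]
      rw [h1, h2] at h
      simp only [List.cons.injEq, true_and] at h
      rw [h.1, ih h.2]

/-- A synchronising code. -/
structure Sync {α : Type} (enc : α → List Bool) (L : ℕ) : Prop where
  len : ∀ a, (enc a).length = L
  start : ∀ a, [true, true] <+: enc a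
  good : ∀ a, Good (enc a).tail
  inj : Function.Injective enc

section

variable {α : Type} (enc : α → List Bool) {L : ℕ}

open Classical in
/-- The letter whose codeword is a prefix of `u`, if any. -/
noncomputable def pre (u : List Bool) : Option α :=
  if h : ∃ a, enc a <+: u then some h.choose else none

variable {enc}

theorem pre_eq_some (S : Sync enc L) {a : α} {u : List Bool} (h : enc a <+: u) :
    pre enc u = some a := by
  have hex : ∃ a, enc a <+: u := ⟨a, h⟩
  unfold pre
  rw [dif_pos hex]
  have h1 := hex.choose_spec
  have h2 : enc hex.choose <+: enc a :=
    List.prefix_of_prefix_length_le h1 h (by rw [S.len, S.len])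
  have h3 := h2.eq_of_length (by rw [S.len, S.len])
  rw [S.inj h3]

theorem pre_prefix {a : α} {u : List Bool} (h : pre enc u = some a) : enc a <+: u := by
  unfold pre at h
  split_ifs at h with hex
  · have h1 := hex.choose_spec
    rw [Option.some.injEq] at h
    rwa [h] at h1

theorem pre_none (S : Sync enc L) {u : List Bool} (h : ¬ [true, true] <+: u) :
    pre enc u = none := by
  cases hp : pre enc u with
  | none => rfl
  | some a => exact absurd ((S.start a).trans (pre_prefix hp)) h

variable (enc)

/-- The letters read in a binary word. -/
noncomputable def dec : List Bool → List α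
  | [] => []
  | b :: u => (pre enc (b :: u)).toList ++ dec u

/-- The letters whose codewords start inside `l` when `l` is followed by `z`. -/
noncomputable def part : List Bool → List Bool → List α
  | [], _ => []
  | b :: l, z => (pre enc ((b :: l) ++ z)).toList ++ part l z

variable {enc}

theorem dec_append (l z : List Bool) : dec enc (l ++ z) = part enc l z ++ dec enc z := by
  induction l with
  | nil => simp [part]
  | cons b l ih => simp [part, dec, ih]

theorem part_mono (S : Sync enc L) (l z z' : List Bool) :
    (part enc l z).Sublist (part enc l (z ++ z')) := by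
  induction l with
  | nil => simp [part]
  | cons b l ih =>
    simp only [part]
    refine List.Sublist.append ?_ ih
    cases hp : pre enc (b :: l ++ z) with
    | none => simp
    | some a =>
      have : pre enc (b :: l ++ (z ++ z')) = some a := by
        apply pre_eq_some S
        rw [← List.append_assoc]
        exact (pre_prefix hp).trans (List.prefix_append _ _)
      rw [this]

theorem part_good (S : Sync enc L) (l z0 z1 : List Bool) (h : Good (l ++ z0)) :
    part enc l (z0 ++ z1) = [] := by
  induction l with
  | nil => simp [part]
  | cons b l ih =>
    simp only [part]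
    rw [ih (h.of_suffix (List.suffix_cons b (l ++ z0)))]
    have h1 : ¬ [true, true] <+: (b :: l ++ z0) ++ z1 :=
      h _ z1 (List.suffix_refl _) (by simp)
    rw [← List.append_assoc, pre_none S h1]
    rfl

theorem dec_enc (S : Sync enc L) (a : α) (z : List Bool) :
    dec enc (enc a ++ z) = a :: dec enc z := by
  have hs := S.start a
  obtain ⟨x, hx⟩ : ∃ x, enc a = true :: x := by
    obtain ⟨t, ht⟩ := hs
    exact ⟨true :: t, by rw [← ht]; rfl⟩
  have hg := S.good a
  rw [hx, List.tail_cons] at hg
  have hp : pre enc (true :: (x ++ z)) = some a := by
    apply pre_eq_some S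
    rw [hx, ← List.cons_append]
    exact List.prefix_append _ _
  rw [hx, List.cons_append, dec, hp, dec_append]
  have h2 := part_good S x [] z (by simpa using hg)
  rw [List.nil_append] at h2
  rw [h2]
  simp

theorem dec_flatMap (S : Sync enc L) (u : List α) : dec enc (u.flatMap enc) = u := by
  induction u with
  | nil => simp [dec]
  | cons a u ih => rw [List.flatMap_cons, dec_enc S, ih]

/-- At most one codeword starts in `l`, but does not end in `l`. -/
theorem part_split (S : Sync enc L) (l z : List Bool) :
    ∃ t : List α, t.length ≤ 1 ∧ part enc l z = part enc l [] ++ t := by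
  induction l with
  | nil => exact ⟨[], by simp, by simp [part]⟩
  | cons b l ih =>
    obtain ⟨t, ht, heq⟩ := ih
    cases hp : pre enc (b :: l ++ z) with
    | none =>
      have h0 : pre enc (b :: l ++ []) = none := by
        cases hq : pre enc (b :: l ++ []) with
        | none => rfl
        | some a =>
          have h1 := pre_prefix hq
          rw [List.append_nil] at h1
          have := pre_eq_some S (h1.trans (List.prefix_append _ z))
          rw [hp] at this
          exact absurd this (by simp)
      refine ⟨t, ht, ?_⟩
      simp only [part]
      rw [hp, h0, heq]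
      simp
    | some a =>
      have hpre := pre_prefix hp
      by_cases hin : enc a <+: b :: l
      · have h0 : pre enc (b :: l ++ []) = some a := by
          rw [List.append_nil]; exact pre_eq_some S hin
        refine ⟨t, ht, ?_⟩
        simp only [part]
        rw [hp, h0, heq]
        simp
      · obtain ⟨z0, hz0, hz⟩ : ∃ z0, enc a = (b :: l) ++ z0 ∧ z0 <+: z := by
          rcases prefix_append_cases hpre with h | ⟨z0, h1, h2⟩
          · exact absurd h hin
          · exact ⟨z0, h1, h2⟩
        obtain ⟨z1, rfl⟩ := hz
        have hg := S.good a
        rw [hz0, List.cons_append, List.tail_cons] at hg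
        have h1 := part_good S l z0 z1 hg
        have h2 : part enc l [] = [] := by
          have := part_mono S l [] (z0 ++ z1)
          rw [List.nil_append, h1] at this
          exact List.sublist_nil.mp this
        have h0 : pre enc (b :: l ++ []) = none := by
          cases hq : pre enc (b :: l ++ []) with
          | none => rfl
          | some a' =>
            have h3 := pre_prefix hq
            rw [List.append_nil] at h3
            have := pre_eq_some S (h3.trans (List.prefix_append _ (z0 ++ z1)))
            rw [hp, Option.some.injEq] at this
            exact absurd (this ▸ h3) hin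
        refine ⟨[a], by simp, ?_⟩
        simp only [part]
        rw [hp, h0, h1, h2]
        simp

/-- The same with one additional position. -/
theorem part_split' (S : Sync enc L) (l : List Bool) (c : Bool) (r : List Bool) :
    ∃ t : List α, t.length ≤ 1 ∧
      part enc l (c :: r) ++ (pre enc (c :: r)).toList = part enc l [] ++ t := by
  induction l with
  | nil =>
    refine ⟨(pre enc (c :: r)).toList, ?_, by simp [part]⟩
    cases pre enc (c :: r) <;> simp
  | cons b l ih =>
    obtain ⟨t, ht, heq⟩ := ih
    cases hp : pre enc (b :: l ++ c :: r) with
    | none =>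
      have h0 : pre enc (b :: l ++ []) = none := by
        cases hq : pre enc (b :: l ++ []) with
        | none => rfl
        | some a =>
          have h1 := pre_prefix hq
          rw [List.append_nil] at h1
          have := pre_eq_some S (h1.trans (List.prefix_append _ (c :: r)))
          rw [hp] at this
          exact absurd this (by simp)
      refine ⟨t, ht, ?_⟩
      simp only [part]
      rw [hp, h0, Option.toList_none, List.nil_append, List.nil_append, heq]
    | some a =>
      have hpre := pre_prefix hp
      by_cases hin : enc a <+: b :: l
      · have h0 : pre enc (b :: l ++ []) = some a := by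
          rw [List.append_nil]; exact pre_eq_some S hin
        refine ⟨t, ht, ?_⟩
        simp only [part]
        rw [hp, h0, List.append_assoc, heq, List.append_assoc]
      · obtain ⟨z0, hz0, hz⟩ : ∃ z0, enc a = (b :: l) ++ z0 ∧ z0 <+: c :: r := by
          rcases prefix_append_cases hpre with h | ⟨z0, h1, h2⟩
          · exact absurd h hin
          · exact ⟨z0, h1, h2⟩
        have hz0ne : z0 ≠ [] := by
          rintro rfl
          apply hin
          rw [hz0, List.append_nil]
        obtain ⟨z1, hz1⟩ := hz
        have hg := S.good a
        rw [hz0, List.cons_append, List.tail_cons] at hg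
        have h1 := part_good S l z0 z1 hg
        rw [hz1] at h1
        have hpc : pre enc (c :: r) = none := by
          rw [← hz1]
          exact pre_none S (hg z0 z1 (List.suffix_append _ _) hz0ne)
        have h2 : part enc l [] = [] := by
          have := part_mono S l [] (c :: r)
          rw [List.nil_append, h1] at this
          exact List.sublist_nil.mp this
        have h0 : pre enc (b :: l ++ []) = none := by
          cases hq : pre enc (b :: l ++ []) with
          | none => rfl
          | some a' =>
            have h3 := pre_prefix hq
            rw [List.append_nil] at h3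
            have := pre_eq_some S (h3.trans (List.prefix_append _ (c :: r)))
            rw [hp, Option.some.injEq] at this
            exact absurd (this ▸ h3) hin
        refine ⟨[a], by simp, ?_⟩
        simp only [part]
        rw [hp, h0, h1, h2, hpc]
        simp

theorem dec_split (S : Sync enc L) (l w r : List Bool) (hw : w.length ≤ 1) :
    ∃ t : List α, t.length ≤ 1 ∧ dec enc (l ++ w ++ r) = part enc l [] ++ t ++ dec enc r := by
  match w, hw with
  | [], _ =>
    obtain ⟨t, ht, h⟩ := part_split S l r
    exact ⟨t, ht, by rw [List.append_nil, dec_append, h]⟩
  | [c], _ =>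
    obtain ⟨t, ht, h⟩ := part_split' S l c r
    refine ⟨t, ht, ?_⟩
    rw [← h, List.append_assoc, dec_append]
    simp [dec]

theorem sublist_dec (S : Sync enc L) (l w r : List Bool) :
    (part enc l [] ++ dec enc r).Sublist (dec enc (l ++ w ++ r)) := by
  rw [List.append_assoc, dec_append]
  refine List.Sublist.append ?_ ?_
  · have := part_mono S l [] (w ++ r)
    rwa [List.nil_append] at this
  · rw [dec_append]
    exact List.sublist_append_right _ _

theorem step (S : Sync enc L) (l w w' r : List Bool) (hw : w.length ≤ 1) (s : List α)
    (hs : s.Sublist (dec enc (l ++ w ++ r))) :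
    ∃ s' : List α, s'.Sublist s ∧ s'.Sublist (dec enc (l ++ w' ++ r)) ∧
      s.length ≤ s'.length + 1 := by
  obtain ⟨t, ht, h⟩ := dec_split S l w r hw
  rw [h] at hs
  obtain ⟨s12, s3, rfl, h12, h3⟩ := List.sublist_append_iff.mp hs
  obtain ⟨s1, s2, rfl, h1, h2⟩ := List.sublist_append_iff.mp h12
  refine ⟨s1 ++ s3, ?_, (h1.append h3).trans (sublist_dec S l w' r), ?_⟩
  · exact (List.sublist_append_left s1 s2).append (List.Sublist.refl s3)
  · have := h2.length_le
    simp only [List.length_append]
    omega

end

end CodeAux

open CodeAux in
theorem sync_lcs {α : Type} {enc : α → List Bool} {L : ℕ} (S : Sync enc L) (u v : List α) :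
    ∃ w : List α, w.Sublist u ∧ w.Sublist v ∧
      u.length ≤ w.length + editDist (u.flatMap enc) (v.flatMap enc) := by
  obtain ⟨p, hp⟩ :=
    (editGraph_connected.preconnected (u.flatMap enc) (v.flatMap enc)).exists_walk_length_eq_dist
  have key : ∀ (x y : List Bool) (q : (editGraph Bool).Walk x y) (k : ℕ),
      (∃ w : List α, w.Sublist u ∧ w.Sublist (dec enc x) ∧ u.length ≤ w.length + k) →
      ∃ w : List α, w.Sublist u ∧ w.Sublist (dec enc y) ∧ u.length ≤ w.length + (k + q.length) := by
    intro x y q
    induction q with
    | nil => intro k hk; simpa using hk
    | @cons x x' y hadj q ih =>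
      rintro k ⟨w, h1, h2, h3⟩
      have hstep : ∃ w' : List α, w'.Sublist u ∧ w'.Sublist (dec enc x') ∧
          u.length ≤ w'.length + (k + 1) := by
        have hcase : ∃ l r m m' : List Bool, m.length ≤ 1 ∧ x = l ++ m ++ r ∧ x' = l ++ m' ++ r := by
          obtain ⟨_, h | h⟩ := hadj
          · rcases h with ⟨l, r, a, h1, h2⟩ | ⟨l, r, a, b, hab, h1, h2⟩
            · exact ⟨l, r, [], [a], by simp, by simp [h1], by simp [h2]⟩
            · exact ⟨l, r, [a], [b], by simp, by simp [h1], by simp [h2]⟩
          · rcases h with ⟨l, r, a, h1, h2⟩ | ⟨l, r, a, b, hab, h1, h2⟩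
            · exact ⟨l, r, [a], [], by simp, by simp [h2], by simp [h1]⟩
            · exact ⟨l, r, [b], [a], by simp, by simp [h2], by simp [h1]⟩
        obtain ⟨l, r, m, m', hm, rfl, rfl⟩ := hcase
        obtain ⟨w', h4, h5, h6⟩ := step S l m m' r hm w h2
        exact ⟨w', h4.trans h1, h5, by omega⟩
      have := ih (k + 1) hstep
      obtain ⟨w', h4, h5, h6⟩ := this
      refine ⟨w', h4, h5, ?_⟩
      rw [SimpleGraph.Walk.length_cons]
      omega
  obtain ⟨w, h1, h2, h3⟩ := key _ _ p 0
    ⟨u, List.Sublist.refl _, by rw [dec_flatMap S], by simp⟩
  rw [dec_flatMap S] at h2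
  refine ⟨w, h1, h2, ?_⟩
  rw [hp, Nat.zero_add] at h3
  exact h3

theorem exists_code (α : Type) [Fintype α] (h : ℕ) (hcard : Fintype.card α ≤ 2 ^ h) :
    ∃ enc : α → List Bool, (∀ a, (enc a).length = 2 * h + 3) ∧
      ∀ u v : List α, ∃ w : List α, w.Sublist u ∧ w.Sublist v ∧
        u.length ≤ w.length + editDist (u.flatMap enc) (v.flatMap enc) := by
  have hc : Fintype.card α ≤ Fintype.card (Fin h → Bool) := by simpa using hcard
  obtain ⟨e⟩ := Function.Embedding.nonempty_of_card_le hc
  let enc : α → List Bool := fun a => CodeAux.word (List.ofFn (e a))
  have S : CodeAux.Sync enc (2 * h + 3) := by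
    refine ⟨?_, ?_, ?_, ?_⟩
    · intro a
      simp [enc, CodeAux.word, CodeAux.length_body]
    · intro a
      simp [enc, CodeAux.word]
    · intro a
      have hb := CodeAux.good_body (List.ofFn (e a))
      show CodeAux.Good (true :: false :: CodeAux.body (List.ofFn (e a)))
      refine CodeAux.Good.cons ?_ (CodeAux.Good.cons ?_ hb)
      · intro z h
        simp [List.cons_prefix_cons] at h
      · intro z h
        simp [List.cons_prefix_cons] at h
    · intro a a' haa
      simp only [enc, CodeAux.word, List.cons.injEq, true_and] at haa
      have h1 := CodeAux.body_injective haa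
      exact e.injective (List.ofFn_injective h1)
  exact ⟨enc, S.len, fun u v => sync_lcs S u v⟩

end Crest.Agent.R210
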