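import Mathlib

/-!
# R210 / Fourier
A character inequality on a finite abelian group implies an `ℓ¹` Poincaré type inequality for all
maps into `ℓ¹`.
-/

set_option autoImplicit false

namespace Crest.Agent.R210

open Finset ComplexConjugate

section Parseval

variable {A : Type*} [AddCommGroup A] [Fintype A]

/-- orthogonality of characters -/
theorem sum_char_mul_conj (χ ψ : AddChar A ℂ) [Decidable (χ = ψ)] :
    ∑ a, χ a * conj (ψ a) = if χ = ψ then (Fintype.card A : ℂ) else 0 := by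
  classical
  have h := AddChar.sum_eq_ite (χ - ψ)
  simp only [AddChar.sub_apply, AddChar.map_neg_eq_conj] at h
  rw [h]
  simp only [sub_eq_zero]

/-- Parseval for combinations of characters -/
theorem parseval (d : AddChar A ℂ → ℂ) :
    ∑ a, ‖∑ χ : AddChar A ℂ, d χ * χ a‖ ^ 2 =
      (Fintype.card A : ℝ) * ∑ χ : AddChar A ℂ, ‖d χ‖ ^ 2 := by
  classical
  have key : (∑ a, (∑ χ : AddChar A ℂ, d χ * χ a) * conj (∑ χ : AddChar A ℂ, d χ * χ a)) =
      (Fintype.card A : ℂ) * ∑ χ : AddChar A ℂ, d χ * conj (d χ) := by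
    calc (∑ a, (∑ χ : AddChar A ℂ, d χ * χ a) * conj (∑ χ : AddChar A ℂ, d χ * χ a))
        = ∑ a, ∑ χ : AddChar A ℂ, ∑ ψ : AddChar A ℂ,
            (d χ * conj (d ψ)) * (χ a * conj (ψ a)) := by
          apply Finset.sum_congr rfl
          intro a _
          rw [map_sum, Finset.sum_mul_sum]
          apply Finset.sum_congr rfl
          intro χ _
          apply Finset.sum_congr rfl
          intro ψ _
          rw [map_mul]
          ring
      _ = ∑ χ : AddChar A ℂ, ∑ ψ : AddChar A ℂ,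
            (d χ * conj (d ψ)) * ∑ a, (χ a * conj (ψ a)) := by
          rw [Finset.sum_comm]
          apply Finset.sum_congr rfl
          intro χ _
          rw [Finset.sum_comm]
          apply Finset.sum_congr rfl
          intro ψ _
          rw [Finset.mul_sum]
      _ = _ := by
          rw [Finset.mul_sum]
          apply Finset.sum_congr rfl
          intro χ _
          simp only [sum_char_mul_conj]
          rw [Finset.sum_eq_single χ]
          · simp
            ring
          · intro ψ _ hne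
            rw [if_neg hne.symm, mul_zero]
          · intro h
            exact absurd (Finset.mem_univ _) h
  have h2 : ∀ z : ℂ, z * conj z = ((‖z‖ ^ 2 : ℝ) : ℂ) := by
    intro z
    rw [Complex.mul_conj, Complex.normSq_eq_norm_sq]
  simp only [h2] at key
  exact_mod_cast key

/-- the quadratic form of a translation -/
theorem exists_fourier (f : A → ℂ) :
    ∃ d : AddChar A ℂ → ℂ, ∀ z : A, ∑ a, ‖f a - f (a + z)‖ ^ 2 =
      (Fintype.card A : ℝ) * ∑ χ : AddChar A ℂ, ‖d χ‖ ^ 2 * ‖1 - χ z‖ ^ 2 := by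
  classical
  refine ⟨fun χ => (AddChar.complexBasis A).repr f χ, fun z => ?_⟩
  have hf : ∀ a, f a = ∑ χ : AddChar A ℂ, (AddChar.complexBasis A).repr f χ * χ a := by
    intro a
    have h := (AddChar.complexBasis A).sum_repr f
    have h' := congrFun h a
    rw [Finset.sum_apply] at h'
    rw [← h']
    apply Finset.sum_congr rfl
    intro χ _
    rw [AddChar.complexBasis_apply]
    simp
  have h1 : ∀ a, f a - f (a + z) =
      ∑ χ : AddChar A ℂ, ((AddChar.complexBasis A).repr f χ * (1 - χ z)) * χ a := by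
    intro a
    rw [hf a, hf (a + z), ← Finset.sum_sub_distrib]
    apply Finset.sum_congr rfl
    intro χ _
    rw [AddChar.map_add_eq_mul]
    ring
  calc ∑ a, ‖f a - f (a + z)‖ ^ 2
      = ∑ a, ‖∑ χ : AddChar A ℂ,
          ((AddChar.complexBasis A).repr f χ * (1 - χ z)) * χ a‖ ^ 2 := by
        apply Finset.sum_congr rfl
        intro a _
        rw [h1 a]
    _ = _ := by
        rw [parseval (fun χ => (AddChar.complexBasis A).repr f χ * (1 - χ z))]
        congr 1
        apply Finset.sum_congr rfl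
        intro χ _
        rw [norm_mul, mul_pow]

variable {κ : Type*} {s : Finset κ} {w : κ → ℝ} {z : κ → A} {Z : A} {C : ℝ}

/-- quadratic inequality for complex functions -/
theorem sq_ineq (h : ∀ χ : AddChar A ℂ, ‖1 - χ Z‖ ^ 2 ≤ C * ∑ k ∈ s, w k * ‖1 - χ (z k)‖ ^ 2)
    (f : A → ℂ) :
    ∑ a, ‖f a - f (a + Z)‖ ^ 2 ≤ C * ∑ k ∈ s, w k * ∑ a, ‖f a - f (a + z k)‖ ^ 2 := by
  obtain ⟨d, hd⟩ := exists_fourier f
  rw [hd Z]
  simp only [hd]
  calc (Fintype.card A : ℝ) * ∑ χ : AddChar A ℂ, ‖d χ‖ ^ 2 * ‖1 - χ Z‖ ^ 2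
      ≤ (Fintype.card A : ℝ) * ∑ χ : AddChar A ℂ,
          ‖d χ‖ ^ 2 * (C * ∑ k ∈ s, w k * ‖1 - χ (z k)‖ ^ 2) := by
        gcongr with χ
        exact h χ
    _ = C * ∑ k ∈ s, w k * ((Fintype.card A : ℝ) *
          ∑ χ : AddChar A ℂ, ‖d χ‖ ^ 2 * ‖1 - χ (z k)‖ ^ 2) := by
        simp only [Finset.mul_sum]
        rw [Finset.sum_comm]
        apply Finset.sum_congr rfl
        intro k _
        apply Finset.sum_congr rfl
        intro χ _
        ring

/-- inequality for sets -/
theorem cut_ineq (h : ∀ χ : AddChar A ℂ, ‖1 - χ Z‖ ^ 2 ≤ C * ∑ k ∈ s, w k * ‖1 - χ (z k)‖ ^ 2)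
    (p : A → Prop) [DecidablePred p] :
    ∑ a, |(if p a then (1:ℝ) else 0) - (if p (a + Z) then (1:ℝ) else 0)| ≤
      C * ∑ k ∈ s, w k * ∑ a, |(if p a then (1:ℝ) else 0) - (if p (a + z k) then (1:ℝ) else 0)| := by
  have key := sq_ineq h (fun a => if p a then (1:ℂ) else 0)
  have e : ∀ a b : A, ‖(if p a then (1:ℂ) else 0) - (if p b then (1:ℂ) else 0)‖ ^ 2 =
      |(if p a then (1:ℝ) else 0) - (if p b then (1:ℝ) else 0)| := by
    intro a b
    split_ifs <;> simp
  simpa only [e] using key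

end Parseval

section Cut

/-- layer cake: `|x - y|` as an integral of cut functions -/
theorem abs_sub_eq_integral (x y : ℝ) :
    |x - y| = ∫ t, (Set.uIoc x y).indicator (fun _ => (1:ℝ)) t := by
  rw [MeasureTheory.integral_indicator measurableSet_uIoc]
  simp [MeasureTheory.Measure.real, Real.volume_uIoc, abs_sub_comm]

theorem indicator_uIoc (x y t : ℝ) :
    (Set.uIoc x y).indicator (fun _ => (1:ℝ)) t =
      |(if t ≤ x then (1:ℝ) else 0) - (if t ≤ y then (1:ℝ) else 0)| := by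
  by_cases h : t ∈ Set.uIoc x y
  · rw [Set.indicator_of_mem h]
    rw [Set.mem_uIoc] at h
    rcases h with ⟨h1, h2⟩ | ⟨h1, h2⟩
    · rw [if_neg (by linarith), if_pos h2]; simp
    · rw [if_pos h2, if_neg (by linarith)]; simp
  · rw [Set.indicator_of_notMem h]
    rw [Set.mem_uIoc] at h
    push Not at h
    by_cases h1 : t ≤ x
    · have h2 : t ≤ y := by
        by_contra h3
        push Not at h3
        linarith [h.2 h3]
      simp [h1, h2]
    · have h2 : ¬ t ≤ y := by
        intro h3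
        push Not at h1
        linarith [h.1 h1]
      simp [h1, h2]

theorem integrable_uIoc (x y : ℝ) :
    MeasureTheory.Integrable (fun t => (Set.uIoc x y).indicator (fun _ => (1:ℝ)) t) := by
  rw [MeasureTheory.integrable_indicator_iff measurableSet_uIoc]
  apply MeasureTheory.integrableOn_const
  · rw [Real.volume_uIoc]; exact ENNReal.ofReal_ne_top
  · simp

variable {A : Type*} [AddCommGroup A] [Fintype A]
variable {κ : Type*} {s : Finset κ} {w : κ → ℝ} {z : κ → A} {Z : A} {C : ℝ}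

/-- inequality for real functions -/
theorem real_ineq
    (h : ∀ χ : AddChar A ℂ, ‖1 - χ Z‖ ^ 2 ≤ C * ∑ k ∈ s, w k * ‖1 - χ (z k)‖ ^ 2)
    (f : A → ℝ) :
    ∑ a, |f a - f (a + Z)| ≤ C * ∑ k ∈ s, w k * ∑ a, |f a - f (a + z k)| := by
  have e1 : ∀ y : A, ∑ a, |f a - f (a + y)| =
      ∫ t, ∑ a, (Set.uIoc (f a) (f (a + y))).indicator (fun _ => (1:ℝ)) t := by
    intro y
    rw [MeasureTheory.integral_finsetSum _ (fun a _ => integrable_uIoc _ _)]
    apply Finset.sum_congr rfl
    intro a _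
    rw [abs_sub_eq_integral]
  have hint : ∀ y : A, MeasureTheory.Integrable (fun t : ℝ =>
      ∑ a, (Set.uIoc (f a) (f (a + y))).indicator (fun _ => (1:ℝ)) t) :=
    fun y => MeasureTheory.integrable_finsetSum _ (fun a _ => integrable_uIoc _ _)
  have e2 : C * ∑ k ∈ s, w k * ∑ a, |f a - f (a + z k)| =
      ∫ t, C * ∑ k ∈ s, w k *
        ∑ a, (Set.uIoc (f a) (f (a + z k))).indicator (fun _ => (1:ℝ)) t := by
    rw [MeasureTheory.integral_const_mul, MeasureTheory.integral_finsetSum]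
    · congr 1
      apply Finset.sum_congr rfl
      intro k _
      rw [MeasureTheory.integral_const_mul, e1]
    · intro k _
      exact (hint _).const_mul _
  rw [e1, e2]
  apply MeasureTheory.integral_mono (hint _)
  · apply MeasureTheory.Integrable.const_mul
    apply MeasureTheory.integrable_finsetSum
    intro k _
    exact (hint _).const_mul _
  · intro t
    simp only [indicator_uIoc]
    exact cut_ineq h (fun a => t ≤ f a)

/-- **main inequality** for maps into real `ℓ¹`. -/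
theorem l1_ineq
    (h : ∀ χ : AddChar A ℂ, ‖1 - χ Z‖ ^ 2 ≤ C * ∑ k ∈ s, w k * ‖1 - χ (z k)‖ ^ 2)
    (f : A → lp (fun _ : ℕ => ℝ) 1) :
    ∑ a, ‖f a - f (a + Z)‖ ≤ C * ∑ k ∈ s, w k * ∑ a, ‖f a - f (a + z k)‖ := by
  have hs : ∀ a b : A, HasSum (fun n => |f a n - f b n|) ‖f a - f b‖ := by
    intro a b
    have := lp.hasSum_norm (p := 1) (by simp) (f a - f b)
    simpa using this
  have h1 : ∀ y : A, HasSum (fun n => ∑ a, |f a n - f (a + y) n|) (∑ a, ‖f a - f (a + y)‖) :=
    fun y => hasSum_sum fun a _ => hs _ _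
  have h2 : HasSum (fun n => C * ∑ k ∈ s, w k * ∑ a, |f a n - f (a + z k) n|)
      (C * ∑ k ∈ s, w k * ∑ a, ‖f a - f (a + z k)‖) :=
    (hasSum_sum fun k _ => (h1 (z k)).mul_left (w k)).mul_left C
  exact hasSum_le (fun n => real_ineq h (fun a => f a n)) (h1 Z) h2

end Cut

section Corollaries

variable {A : Type} [AddCommGroup A] [Fintype A] {K : Type} [Fintype K]

/-- `L²` version (Parseval on a finite abelian group). -/
theorem fourier_l2
    (Z : A) (z : K → A) (w : K → ℝ)
    (h : ∀ χ : AddChar A ℂ, ‖1 - χ Z‖ ^ 2 ≤ ∑ k, w k * ‖1 - χ (z k)‖ ^ 2)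
    (f : A → ℂ) :
    ∑ a, ‖f a - f (a + Z)‖ ^ 2 ≤ ∑ k, w k * ∑ a, ‖f a - f (a + z k)‖ ^ 2 := by
  have := sq_ineq (s := Finset.univ) (C := 1) (w := w) (z := z) (Z := Z)
    (fun χ => by rw [one_mul]; exact h χ) f
  rwa [one_mul] at this

/-- `ℓ¹` version for real functions. -/
theorem fourier_l1
    (Z : A) (z : K → A) (w : K → ℝ)
    (h : ∀ χ : AddChar A ℂ, ‖1 - χ Z‖ ^ 2 ≤ ∑ k, w k * ‖1 - χ (z k)‖ ^ 2)
    (f : A → ℝ) :
    ∑ a, |f a - f (a + Z)| ≤ ∑ k, w k * ∑ a, |f a - f (a + z k)| := by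
  have := real_ineq (s := Finset.univ) (C := 1) (w := w) (z := z) (Z := Z)
    (fun χ => by rw [one_mul]; exact h χ) f
  rwa [one_mul] at this

/-- version for maps into real `ℓ¹` -/
theorem fourier_lp
    (Z : A) (z : K → A) (w : K → ℝ)
    (h : ∀ χ : AddChar A ℂ, ‖1 - χ Z‖ ^ 2 ≤ ∑ k, w k * ‖1 - χ (z k)‖ ^ 2)
    (f : A → lp (fun _ : ℕ => ℝ) 1) :
    ∑ a, ‖f a - f (a + Z)‖ ≤ ∑ k, w k * ∑ a, ‖f a - f (a + z k)‖ := by
  have := l1_ineq (s := Finset.univ) (C := 1) (w := w) (z := z) (Z := Z)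
    (fun χ => by rw [one_mul]; exact h χ) f
  rwa [one_mul] at this

end Corollaries

end Crest.Agent.R210
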