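import Mathlib

set_option autoImplicit false

/-!
# R210 / Grid

The "far" step of the hierarchical construction: upper bound for the length of a common
subsequence of two concatenations of `b` rows of `m` blocks, blocks of different columns having
disjoint alphabets, and most columns of each diagonal losing a constant proportion.
-/

namespace Crest.Agent.R210.Grid

variable {α : Type*}

/-- One step of the block recursion for common sublists. -/
theorem common_step {S A B X Y : List α} (h1 : S.Sublist (A ++ X)) (h2 : S.Sublist (B ++ Y)) :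
    ∃ S1 S2 : List α, S = S1 ++ S2 ∧ S1.Sublist A ∧ S1.Sublist B ∧
      ((S2.Sublist X ∧ S2.Sublist (B ++ Y)) ∨ (S2.Sublist (A ++ X) ∧ S2.Sublist Y)) := by
  obtain ⟨a, x, rfl, ha, hx⟩ := List.sublist_append_iff.1 h1
  obtain ⟨c, y, hcy, hc, hy⟩ := List.sublist_append_iff.1 h2
  rcases List.append_eq_append_iff.1 hcy with ⟨t, ht1, ht2⟩ | ⟨t, ht1, ht2⟩
  · -- c = a ++ t, x = t ++ y
    refine ⟨a, x, rfl, ha, ?_, Or.inl ⟨hx, ?_⟩⟩
    · exact (List.sublist_append_left a t).trans (ht1 ▸ hc)
    · subst ht2
      refine List.Sublist.append ?_ hy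
      exact (List.sublist_append_right a t).trans (ht1 ▸ hc)
  · -- a = c ++ t, y = t ++ x
    refine ⟨c, t ++ x, ?_, ?_, hc, Or.inr ⟨?_, ?_⟩⟩
    · rw [ht1, List.append_assoc]
    · exact (List.sublist_append_left c t).trans (ht1 ▸ ha)
    · refine List.Sublist.append ?_ hx
      exact (List.sublist_append_right c t).trans (ht1 ▸ ha)
    · exact ht2 ▸ hy

/-- Maximal total gain of a lattice path with `s` unit steps starting at `(j, j')`; the gain of a
step is the value of `g` at its starting point. -/
def G (g : ℕ → ℕ → ℕ) : ℕ → ℕ → ℕ → ℕ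
  | 0, _, _ => 0
  | s + 1, j, j' => g j j' + max (G g s (j + 1) j') (G g s j (j' + 1))

theorem G_mono_steps (g : ℕ → ℕ → ℕ) (s j j' : ℕ) : G g s j j' ≤ G g (s + 1) j j' := by
  induction s generalizing j j' with
  | zero => simp [G]
  | succ s ih =>
    rw [G, G]
    have h1 := ih (j + 1) j'
    have h2 := ih j (j' + 1)
    omega

/-- Common sublists of two concatenations of blocks are controlled by lattice paths. -/
theorem length_le_G (g : ℕ → ℕ → ℕ) (U V : ℕ → List α) (N N' : ℕ)
    (hg : ∀ j < N, ∀ j' < N', ∀ S : List α, S.Sublist (U j) → S.Sublist (V j') →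
      S.length ≤ g j j') :
    ∀ (s n n' j j' : ℕ), n + n' = s → j + n = N → j' + n' = N' → ∀ S : List α,
      S.Sublist ((List.range' j n).flatMap U) → S.Sublist ((List.range' j' n').flatMap V) →
      S.length ≤ G g s j j' := by
  intro s
  induction s with
  | zero =>
    intro n n' j j' h _ _ S h1 _
    have hn : n = 0 := by omega
    subst hn
    simp at h1
    simp [h1]
  | succ s ih =>
    intro n n' j j' h hN hN' S h1 h2
    rcases n with _ | n
    · simp at h1
      simp [h1]
    rcases n' with _ | n'
    · simp at h2
      simp [h2]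
    have e1 : (List.range' j (n + 1)).flatMap U
        = U j ++ (List.range' (j + 1) n).flatMap U := by
      rw [List.range'_succ]; simp
    have e2 : (List.range' j' (n' + 1)).flatMap V
        = V j' ++ (List.range' (j' + 1) n').flatMap V := by
      rw [List.range'_succ]; simp
    rw [e1] at h1
    rw [e2] at h2
    obtain ⟨S1, S2, rfl, ha, hb, hc⟩ := common_step h1 h2
    have hS1 : S1.length ≤ g j j' := hg j (by omega) j' (by omega) S1 ha hb
    rw [G, List.length_append]
    rcases hc with ⟨hx, hy⟩ | ⟨hx, hy⟩
    · rw [← e2] at hy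
      have := ih n (n' + 1) (j + 1) j' (by omega) (by omega) (by omega) S2 hx hy
      have h3 := le_max_left (G g s (j + 1) j') (G g s j (j' + 1))
      omega
    · rw [← e1] at hx
      have := ih (n + 1) n' j (j' + 1) (by omega) (by omega) (by omega) S2 hx hy
      have h3 := le_max_right (G g s (j + 1) j') (G g s j (j' + 1))
      omega

/-- Splitting a path in two. -/
theorem G_add_le (g : ℕ → ℕ → ℕ) (s' W : ℕ) (hW : ∀ x y, G g s' x y ≤ W) :
    ∀ s j j', G g (s + s') j j' ≤ G g s j j' + W := by
  intro s
  induction s with
  | zero => intro j j'; simpa [G] using hW j j'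
  | succ s ih =>
    intro j j'
    have e : s + 1 + s' = (s + s') + 1 := by omega
    rw [e, G, G]
    have h1 := ih (j + 1) j'
    have h2 := ih j (j' + 1)
    omega

/-- Splitting a path in `b` windows. -/
theorem G_mul_le (g : ℕ → ℕ → ℕ) (s' W : ℕ) (hW : ∀ x y, G g s' x y ≤ W) :
    ∀ b j j', G g (b * s') j j' ≤ b * W := by
  intro b
  induction b with
  | zero => intro j j'; simp [G]
  | succ b ih =>
    intro j j'
    have h1 := G_add_le g s' W hW (b * s') j j'
    have h2 := ih j j'
    have e : (b + 1) * s' = b * s' + s' := by ring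
    rw [e]
    calc G g (b * s' + s') j j' ≤ G g (b * s') j j' + W := h1
      _ ≤ b * W + W := by omega
      _ = (b + 1) * W := by ring

/-- An optimal path: `x t` is the horizontal displacement after `t` steps. -/
theorem exists_path (g : ℕ → ℕ → ℕ) :
    ∀ s j j', ∃ x : ℕ → ℕ, x 0 = 0 ∧ (∀ t, x (t + 1) = x t ∨ x (t + 1) = x t + 1) ∧
      G g s j j' = ∑ t ∈ Finset.range s, g (j + x t) (j' + (t - x t)) := by
  intro s
  induction s with
  | zero =>
    intro j j'
    exact ⟨fun _ => 0, rfl, fun t => Or.inl rfl, by simp [G]⟩
  | succ s ih =>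
    intro j j'
    rcases le_total (G g s (j + 1) j') (G g s j (j' + 1)) with h | h
    · obtain ⟨x, hx0, hx1, hx2⟩ := ih j (j' + 1)
      have hle : ∀ t, x t ≤ t := by
        intro t
        induction t with
        | zero => omega
        | succ t iht => rcases hx1 t with h | h <;> omega
      refine ⟨fun t => x (t - 1), by simpa using hx0, ?_, ?_⟩
      · intro t
        rcases t with _ | t
        · left; simp
        · simpa using hx1 t
      · rw [G, max_eq_right h, hx2, Finset.sum_range_succ', add_comm]
        congr 1
        · apply Finset.sum_congr rfl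
          intro t _
          have := hle t
          simp only [Nat.add_sub_cancel]
          congr 1
          omega
        · simp [hx0]
    · obtain ⟨x, hx0, hx1, hx2⟩ := ih (j + 1) j'
      have hle : ∀ t, x t ≤ t := by
        intro t
        induction t with
        | zero => omega
        | succ t iht => rcases hx1 t with h | h <;> omega
      refine ⟨fun t => if t = 0 then 0 else x (t - 1) + 1, by simp, ?_, ?_⟩
      · intro t
        rcases t with _ | t
        · right; simp [hx0]
        · simpa using hx1 t
      · rw [G, max_eq_left h, hx2, Finset.sum_range_succ', add_comm]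
        congr 1
        · apply Finset.sum_congr rfl
          intro t _
          have := hle t
          simp only [Nat.add_sub_cancel, Nat.add_eq_zero_iff, one_ne_zero, and_false, if_false]
          congr 1 <;> omega

/-- A set of natural numbers in `[lo, hi]` without two consecutive elements. -/
theorem card_no_adj : ∀ (n lo : ℕ) (A : Finset ℕ), (∀ t ∈ A, lo ≤ t ∧ t < lo + n) →
    (∀ t ∈ A, t + 1 ∉ A) → 2 * A.card ≤ n + 1 := by
  intro n
  induction n using Nat.strong_induction_on with
  | _ n ih =>
    intro lo A hA hadj
    rcases n with _ | n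
    · have : A = ∅ := by
        apply Finset.eq_empty_of_forall_notMem
        intro t ht
        have := hA t ht
        omega
      simp [this]
    · by_cases h : lo ∈ A
      · rcases n with _ | n
        · have : A ⊆ {lo} := by
            intro t ht
            have := hA t ht
            simp; omega
          have := Finset.card_le_card this
          simp at this
          omega
        · have h1 := ih n (by omega) (lo + 2) (A.erase lo) (by
            intro t ht
            have h2 := hA t (Finset.mem_of_mem_erase ht)
            have h3 : t ≠ lo := Finset.ne_of_mem_erase ht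
            have h4 : t ≠ lo + 1 := by
              rintro rfl
              exact hadj lo h (Finset.mem_of_mem_erase ht)
            omega) (by
            intro t ht ht'
            exact hadj t (Finset.mem_of_mem_erase ht) (Finset.mem_of_mem_erase ht'))
          have h5 := Finset.card_erase_add_one h
          omega
      · have h1 := ih n (by omega) (lo + 1) A (by
            intro t ht
            have h2 := hA t ht
            have h3 : t ≠ lo := by rintro rfl; exact h ht
            omega) hadj
        omega

/-- The window bound: `2 m` steps of a lattice path gain at most `(1 - κ/4) m l`. -/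
theorem window (m l : ℕ) (κ : ℝ) (hm : 6 ≤ m) (hκ0 : 0 ≤ κ) (hκ1 : κ ≤ 1) (g : ℕ → ℕ → ℕ)
    (bad : ℤ → Finset ℕ)
    (hbad : ∀ k, 2 * (bad k).card ≤ m)
    (h0 : ∀ j j', j % m ≠ j' % m → g j j' = 0)
    (h1 : ∀ j j', g j j' ≤ l)
    (h2 : ∀ j j', j % m = j' % m → j % m ∉ bad (((j' / m : ℕ) : ℤ) - ((j / m : ℕ) : ℤ)) →
      (g j j' : ℝ) ≤ (1 - κ) * l) (j j' : ℕ) :
    (G g (2 * m) j j' : ℝ) ≤ (1 - κ / 4) * (m * l) := by
  obtain ⟨x, hx0, hx1, hx2⟩ := exists_path g (2 * m) j j'
  have hle : ∀ t, x t ≤ t := by
    intro t
    induction t with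
    | zero => omega
    | succ t iht => rcases hx1 t with h | h <;> omega
  have hlip : ∀ t u, t ≤ u → x t ≤ x u ∧ x u ≤ x t + (u - t) := by
    intro t u htu
    induction u, htu using Nat.le_induction with
    | base => omega
    | succ u hu ihu => rcases hx1 u with h | h <;> omega
  set A : Finset ℕ := (Finset.range (2 * m)).filter
    (fun t => (j + x t) % m = (j' + (t - x t)) % m) with hA
  have hsum : G g (2 * m) j j' = ∑ t ∈ A, g (j + x t) (j' + (t - x t)) := by
    rw [hx2, hA, Finset.sum_filter]
    apply Finset.sum_congr rfl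
    intro t _
    split_ifs with h
    · rfl
    · exact h0 _ _ h
  have hmem : ∀ t, t ∈ A → t < 2 * m ∧ (j + x t) % m = (j' + (t - x t)) % m := by
    intro t ht
    rw [hA, Finset.mem_filter, Finset.mem_range] at ht
    exact ht
  by_cases hcase : ∀ t ∈ A, ∀ u ∈ A, (2 * (x t) + u = 2 * (x u) + t)
  · -- one diagonal
    by_cases hne : A.Nonempty
    · obtain ⟨t0, ht0⟩ := hne
      set k : ℤ := (((j' + (t0 - x t0)) / m : ℕ) : ℤ) - (((j + x t0) / m : ℕ) : ℤ) with hk
      have hkall : ∀ t ∈ A,
          (((j' + (t - x t)) / m : ℕ) : ℤ) - (((j + x t) / m : ℕ) : ℤ) = k := by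
        intro t ht
        have e1 := hcase t ht t0 ht0
        have e2 := (hmem t ht).2
        have e3 := (hmem t0 ht0).2
        have l1 := hle t
        have l2 := hle t0
        have d1 := Nat.div_add_mod (j' + (t - x t)) m
        have d2 := Nat.div_add_mod (j + x t) m
        have d3 := Nat.div_add_mod (j' + (t0 - x t0)) m
        have d4 := Nat.div_add_mod (j + x t0) m
        have hmz : (m : ℤ) ≠ 0 := by positivity
        apply mul_left_cancel₀ hmz
        rw [hk]
        zify [l1, l2] at *
        linarith
      -- injectivity of the columns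
      have hinj : Set.InjOn (fun t => (j + x t) % m) (A : Set ℕ) := by
        have key : ∀ t ∈ A, ∀ u ∈ A, t ≤ u → (j + x t) % m = (j + x u) % m → t = u := by
          intro t ht u hu htu e
          have e1 := hcase t ht u hu
          have b1 := (hmem t ht).1
          have b2 := (hmem u hu).1
          have l1 := hlip t u htu
          have : x t = x u := by
            have hd : m ∣ (j + x u) - (j + x t) :=
              (Nat.modEq_iff_dvd' (by omega)).1 e
            have hd2 : m ∣ x u - x t := by
              have : (j + x u) - (j + x t) = x u - x t := by omega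
              rwa [this] at hd
            have hlt : x u - x t < m := by omega
            have := Nat.eq_zero_of_dvd_of_lt hd2 hlt
            omega
          omega
        intro t ht u hu e
        rcases le_total t u with h | h
        · exact key t ht u hu h e
        · exact (key u hu t ht h e.symm).symm
      have hcardA : A.card ≤ m := by
        have : A.card ≤ (Finset.range m).card := by
          apply Finset.card_le_card_of_injOn _ _ hinj
          intro t _
          simp
          exact Nat.mod_lt _ (by omega)
        simpa using this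
      set Ab := A.filter (fun t => (j + x t) % m ∈ bad k) with hAb
      set Ag := A.filter (fun t => (j + x t) % m ∉ bad k) with hAg
      have hcardb : 2 * Ab.card ≤ m := by
        have : Ab.card ≤ (bad k).card := by
          apply Finset.card_le_card_of_injOn (fun t => (j + x t) % m)
          · intro t ht
            rw [hAb] at ht
            simpa using (Finset.mem_filter.1 ht).2
          · exact hinj.mono (by
              intro t ht
              rw [hAb] at ht
              exact (Finset.mem_filter.1 ht).1)
        have := hbad k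
        omega
      have hsplit : Ab.card + Ag.card = A.card := Finset.card_filter_add_card_filter_not _
      have hsplit2 : ∑ t ∈ A, g (j + x t) (j' + (t - x t))
          = ∑ t ∈ Ab, g (j + x t) (j' + (t - x t)) + ∑ t ∈ Ag, g (j + x t) (j' + (t - x t)) :=
        (Finset.sum_filter_add_sum_filter_not A _ _).symm
      have hb1 : ((∑ t ∈ Ab, g (j + x t) (j' + (t - x t)) : ℕ) : ℝ) ≤ Ab.card * (l : ℝ) := by
        have : ∑ t ∈ Ab, g (j + x t) (j' + (t - x t)) ≤ Ab.card * l := by
          calc ∑ t ∈ Ab, g (j + x t) (j' + (t - x t)) ≤ ∑ t ∈ Ab, l :=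
                Finset.sum_le_sum (fun t _ => h1 _ _)
            _ = Ab.card * l := by simp
        exact_mod_cast this
      have hb2 : ((∑ t ∈ Ag, g (j + x t) (j' + (t - x t)) : ℕ) : ℝ)
          ≤ Ag.card * ((1 - κ) * (l : ℝ)) := by
        push_cast
        calc ∑ t ∈ Ag, (g (j + x t) (j' + (t - x t)) : ℝ) ≤ ∑ t ∈ Ag, (1 - κ) * (l : ℝ) := by
              apply Finset.sum_le_sum
              intro t ht
              rw [hAg, Finset.mem_filter] at ht
              apply h2 _ _ (hmem t ht.1).2
              rw [hkall t ht.1]
              exact ht.2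
          _ = Ag.card * ((1 - κ) * (l : ℝ)) := by simp
      rw [hsum, hsplit2, Nat.cast_add]
      have hc1 : (2 : ℝ) * Ab.card ≤ m := by exact_mod_cast hcardb
      have hc2 : (Ab.card : ℝ) + Ag.card ≤ m := by
        have : Ab.card + Ag.card ≤ m := by omega
        exact_mod_cast this
      have hl0 : (0 : ℝ) ≤ l := Nat.cast_nonneg l
      have hA0 : (0 : ℝ) ≤ Ag.card := Nat.cast_nonneg _
      have hm0 : (0 : ℝ) ≤ m := Nat.cast_nonneg _
      have hfin : (Ab.card : ℝ) + Ag.card * (1 - κ) ≤ (1 - κ / 4) * m := by
        have e1 : (Ag.card : ℝ) * (1 - κ) ≤ (m - Ab.card) * (1 - κ) :=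
          mul_le_mul_of_nonneg_right (by linarith) (by linarith)
        have e2 : κ * (2 * Ab.card) ≤ κ * m := mul_le_mul_of_nonneg_left hc1 hκ0
        have e3 : 0 ≤ κ * m := mul_nonneg hκ0 hm0
        nlinarith
      calc _ ≤ (Ab.card : ℝ) * l + Ag.card * ((1 - κ) * (l : ℝ)) := add_le_add hb1 hb2
        _ = ((Ab.card : ℝ) + Ag.card * (1 - κ)) * l := by ring
        _ ≤ ((1 - κ / 4) * m) * l := mul_le_mul_of_nonneg_right hfin hl0
        _ = (1 - κ / 4) * (m * l) := by ring
    · have : A = ∅ := Finset.not_nonempty_iff_eq_empty.1 hne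
      rw [hsum, this]
      simp only [Finset.sum_empty, Nat.cast_zero]
      apply mul_nonneg (by linarith)
      positivity
  · -- two diagonals
    push Not at hcase
    obtain ⟨t, ht, u, hu, hne⟩ := hcase
    -- WLOG t < u
    have key : ∀ t ∈ A, ∀ u ∈ A, t < u → 2 * (x t) + u ≠ 2 * (x u) + t → 2 * A.card ≤ m + 3 := by
      intro t ht u hu htu hne
      -- minimal u' > t in A with a different diagonal
      have hex : ∃ u, u ∈ A ∧ t < u ∧ 2 * (x t) + u ≠ 2 * (x u) + t := ⟨u, hu, htu, hne⟩
      classical
      set v := Nat.find hex with hv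
      obtain ⟨hvA, htv, hvne⟩ := Nat.find_spec hex
      rw [← hv] at hvA htv hvne
      have hmin : ∀ w, w < v → w ∈ A → t < w → 2 * (x t) + w = 2 * (x w) + t := by
        intro w hw hwA htw
        by_contra hcon
        exact Nat.find_min hex hw ⟨hwA, htw, hcon⟩
      -- the last element of A below v
      have hne2 : (A.filter (fun w => w < v)).Nonempty :=
        ⟨t, Finset.mem_filter.2 ⟨ht, htv⟩⟩
      set w := (A.filter (fun w => w < v)).max' hne2 with hw
      have hwmem : w ∈ A.filter (fun w => w < v) := Finset.max'_mem _ hne2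
      obtain ⟨hwA, hwv⟩ := Finset.mem_filter.1 hwmem
      have htw : t ≤ w := Finset.le_max' _ _ (Finset.mem_filter.2 ⟨ht, htv⟩)
      have hdiagw : 2 * (x t) + w = 2 * (x w) + t := by
        rcases Nat.eq_or_lt_of_le htw with h | h
        · rw [← h]
        · exact hmin w hwv hwA h
      have hgap : ∀ y ∈ A, y ≤ w ∨ v ≤ y := by
        intro y hy
        by_cases h : y < v
        · left; exact Finset.le_max' _ _ (Finset.mem_filter.2 ⟨hy, h⟩)
        · right; omega
      -- v - w ≥ m
      have hvw : w + m ≤ v := by
        have e1 := (hmem w hwA).2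
        have e2 := (hmem v hvA).2
        have l1 := hlip w v hwv.le
        have l2 := hle w
        have l3 := hle v
        have hne3 : 2 * (x w) + v ≠ 2 * (x v) + w := by omega
        -- m divides the difference of diagonals
        have e1' : ((j : ℤ) + x w) % m = ((j' : ℤ) + (w - x w)) % m := by
          have := congrArg (Nat.cast : ℕ → ℤ) e1
          push_cast [l2] at this
          exact this
        have e2' : ((j : ℤ) + x v) % m = ((j' : ℤ) + (v - x v)) % m := by
          have := congrArg (Nat.cast : ℕ → ℤ) e2
          push_cast [l3] at this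
          exact this
        have d2 : (m : ℤ) ∣ ((j' : ℤ) + (w - x w)) - ((j : ℤ) + x w) := Int.ModEq.dvd e1'
        have d3 : (m : ℤ) ∣ ((j' : ℤ) + (v - x v)) - ((j : ℤ) + x v) := Int.ModEq.dvd e2'
        have d4 : (m : ℤ) ∣ ((v : ℤ) - 2 * x v) - ((w : ℤ) - 2 * x w) := by
          have := dvd_sub d3 d2
          have e : ((j' : ℤ) + (v - x v)) - ((j : ℤ) + x v) -
              (((j' : ℤ) + (w - x w)) - ((j : ℤ) + x w))
              = ((v : ℤ) - 2 * x v) - ((w : ℤ) - 2 * x w) := by ring
          rwa [e] at this
        have hnz : ((v : ℤ) - 2 * x v) - ((w : ℤ) - 2 * x w) ≠ 0 := by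
          intro h
          apply hne3
          omega
        have hbig := Int.le_of_dvd (abs_pos.2 hnz) ((dvd_abs _ _).2 d4)
        rcases le_total 0 (((v : ℤ) - 2 * x v) - ((w : ℤ) - 2 * x w)) with h | h
        · rw [abs_of_nonneg h] at hbig
          omega
        · rw [abs_of_nonpos h] at hbig
          omega
      have hadj : ∀ y ∈ A, y + 1 ∉ A := by
        intro y hy hy1
        have e1 := (hmem y hy).2
        have e2 := (hmem (y + 1) hy1).2
        have l2 := hle y
        have l3 := hle (y + 1)
        rcases hx1 y with h | h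
        · have e3 : y + 1 - x (y + 1) = (y - x y) + 1 := by omega
          rw [h, e1] at e2
          rw [show j' + (y + 1 - x y) = (j' + (y - x y)) + 1 by omega] at e2
          have : (m : ℕ) ∣ 1 := by
            have h5 := (Nat.modEq_iff_dvd' (by omega)).1 (e2 : (j' + (y - x y)) ≡ _ [MOD m])
            simpa using h5
          have := Nat.le_of_dvd (by norm_num) this
          omega
        · rw [h, show j' + (y + 1 - (x y + 1)) = j' + (y - x y) by omega, ← e1] at e2
          have : (m : ℕ) ∣ 1 := by
            have h5 := (Nat.modEq_iff_dvd' (by omega)).1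
              (e2.symm : (j + x y) ≡ (j + (x y + 1)) [MOD m])
            have h6 : j + (x y + 1) - (j + x y) = 1 := by omega
            rwa [h6] at h5
          have := Nat.le_of_dvd (by norm_num) this
          omega
      -- count
      have hc1 := card_no_adj (w + 1) 0 (A.filter (fun y => y ≤ w)) (by
        intro y hy
        have := (Finset.mem_filter.1 hy).2
        omega) (by
        intro y hy hy1
        exact hadj y (Finset.mem_filter.1 hy).1 (Finset.mem_filter.1 hy1).1)
      have hc2 := card_no_adj (2 * m - v) v (A.filter (fun y => ¬ y ≤ w)) (by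
        intro y hy
        have h1 := (Finset.mem_filter.1 hy)
        have h2 := hgap y h1.1
        have h3 := (hmem y h1.1).1
        omega) (by
        intro y hy hy1
        exact hadj y (Finset.mem_filter.1 hy).1 (Finset.mem_filter.1 hy1).1)
      have hc3 := Finset.card_filter_add_card_filter_not (s := A) (fun y => y ≤ w)
      have hv2 := (hmem v hvA).1
      omega
    have hcard : 2 * A.card ≤ m + 3 := by
      rcases lt_trichotomy t u with h | h | h
      · exact key t ht u hu h hne
      · subst h; exact absurd rfl hne
      · exact key u hu t ht h (fun e => hne e.symm)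
    have hs : ∑ t ∈ A, g (j + x t) (j' + (t - x t)) ≤ A.card * l := by
      calc ∑ t ∈ A, g (j + x t) (j' + (t - x t)) ≤ ∑ t ∈ A, l :=
            Finset.sum_le_sum (fun t _ => h1 _ _)
        _ = A.card * l := by simp
    rw [hsum]
    have hs' : ((∑ t ∈ A, g (j + x t) (j' + (t - x t)) : ℕ) : ℝ) ≤ A.card * (l : ℝ) := by
      exact_mod_cast hs
    have hcard' : (2 : ℝ) * A.card ≤ m + 3 := by exact_mod_cast hcard
    have hl0 : (0 : ℝ) ≤ l := Nat.cast_nonneg l
    have hm6 : (6 : ℝ) ≤ m := by exact_mod_cast hm
    have hfin : (A.card : ℝ) ≤ (1 - κ / 4) * m := by nlinarith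
    calc _ ≤ (A.card : ℝ) * l := hs'
      _ ≤ ((1 - κ / 4) * m) * l := mul_le_mul_of_nonneg_right hfin hl0
      _ = (1 - κ / 4) * (m * l) := by ring

/-- Double index concatenation as a single one. -/
theorem flatMap_rows (m b : ℕ) (U : ℕ → ℕ → List α) (hm : 0 < m) :
    (List.range b).flatMap (fun c => (List.range m).flatMap (fun i => U c i))
      = (List.range' 0 (b * m)).flatMap (fun j => U (j / m) (j % m)) := by
  induction b with
  | zero => simp
  | succ b ih =>
    rw [List.range_succ, List.flatMap_append, ih]
    have e : List.range' 0 ((b + 1) * m) = List.range' 0 (b * m) ++ List.range' (b * m) m := by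
      rw [add_mul, one_mul]
      have := @List.range'_append 0 (b * m) m 1
      simp only [one_mul, Nat.zero_add] at this
      exact this.symm
    rw [e, List.flatMap_append]
    congr 1
    simp only [List.flatMap_cons, List.flatMap_nil, List.append_nil]
    have e2 : List.range' (b * m) m = (List.range m).map (fun i => b * m + i) := by
      rw [List.range_eq_range', List.map_add_range']
      simp
    rw [e2, List.flatMap_map]
    apply List.flatMap_congr
    intro i hi
    have hi' : i < m := List.mem_range.1 hi
    have h1 : (b * m + i) / m = b := by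
      rw [mul_comm, Nat.mul_add_div hm, Nat.div_eq_of_lt hi']; simp
    have h2 : (b * m + i) % m = i := by
      rw [mul_comm, Nat.mul_add_mod, Nat.mod_eq_of_lt hi']
    rw [h1, h2]

end Crest.Agent.R210.Grid

namespace Crest.Agent.R210

open Crest.Agent.R210.Grid

variable {α : Type}

/-- every common subsequence of `u` and `v` has length at most `k` -/
def LCSle (u v : List α) (k : ℝ) : Prop :=
  ∀ w : List α, w.Sublist u → w.Sublist v → (w.length : ℝ) ≤ k

/-- Words `U = ∏_{c<b} ∏_{i<m} u c i`, `V = ∏_{c<b} ∏_{i<m} v c i`.  Blocks with different `i`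
have no common letter; blocks have length at most `lam`; for each difference `e = c' - c`
(with `|e| < b`) there is a set `F e` of at least `m/2` indices `i` for which the blocks
`u c i`, `v c' i` have a common subsequence of length at most `(1-κ) lam` only. -/
theorem grid_lcs (m b lam : ℕ) (hm : 6 ≤ m) (κ : ℝ) (hκ0 : 0 ≤ κ) (hκ1 : κ ≤ 1)
    (u v : ℕ → ℕ → List α)
    (hlen : ∀ c < b, ∀ i < m, (u c i).length ≤ lam)
    (hdis : ∀ c < b, ∀ c' < b, ∀ i < m, ∀ i' < m, i ≠ i' → ∀ x ∈ u c i, x ∉ v c' i')
    (F : ℤ → Finset ℕ)
    (hFsub : ∀ e, F e ⊆ Finset.range m)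
    (hFcard : ∀ e : ℤ, |e| < b → m ≤ 2 * (F e).card)
    (hfar : ∀ c < b, ∀ c' < b, ∀ i ∈ F ((c' : ℤ) - c),
      LCSle (u c i) (v c' i) ((1 - κ) * lam)) :
    LCSle ((List.range b).flatMap fun c => (List.range m).flatMap fun i => u c i)
      ((List.range b).flatMap fun c => (List.range m).flatMap fun i => v c i)
      ((1 - κ / 4) * (b * m * lam)) := by
  classical
  intro S h1 h2
  have hm0 : 0 < m := by omega
  rw [flatMap_rows m b _ hm0] at h1 h2
  -- the gain function
  let P : ℕ → ℕ → Prop := fun j j' => j < b * m ∧ j' < b * m ∧ j % m = j' % m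
  let bad' : ℤ → Finset ℕ := fun k => if |k| < b then Finset.range m \ F k else ∅
  let Good : ℕ → ℕ → Prop := fun j j' =>
    j % m ∉ bad' (((j' / m : ℕ) : ℤ) - ((j / m : ℕ) : ℤ))
  let g : ℕ → ℕ → ℕ := fun j j' =>
    if P j j' then (if Good j j' then ⌊(1 - κ) * (lam : ℝ)⌋₊ else lam) else 0
  have hnn : 0 ≤ (1 - κ) * (lam : ℝ) := mul_nonneg (by linarith) (Nat.cast_nonneg _)
  have hfl : ((⌊(1 - κ) * (lam : ℝ)⌋₊ : ℕ) : ℝ) ≤ (1 - κ) * lam := Nat.floor_le hnn
  have hb2 : ∀ k, 2 * (bad' k).card ≤ m := by
    intro k
    simp only [bad']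
    split_ifs with h
    · have h3 := hFcard k h
      have h4 := Finset.card_sdiff_add_card_eq_card (hFsub k)
      rw [Finset.card_range] at h4
      omega
    · simp
  have habs : ∀ A B : ℕ, A < b → B < b → |(B : ℤ) - (A : ℤ)| < b := by
    intro A B hA hB
    rw [abs_lt]
    constructor <;> omega
  have key : ∀ x y, (G g (2 * m) x y : ℝ) ≤ (1 - κ / 4) * (m * lam) := by
    intro x y
    apply window m lam κ hm hκ0 hκ1 g bad' hb2
    · intro j j' h
      simp only [g, P]
      rw [if_neg]
      rintro ⟨_, _, h'⟩
      exact h h'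
    · intro j j'
      simp only [g]
      split_ifs
      · have h3 : ((⌊(1 - κ) * (lam : ℝ)⌋₊ : ℕ) : ℝ) ≤ lam := by
          have : (0 : ℝ) ≤ lam := Nat.cast_nonneg _
          nlinarith
        exact_mod_cast h3
      · exact le_rfl
      · exact Nat.zero_le _
    · intro j j' hjj hgood
      simp only [g]
      have hgood' : Good j j' := hgood
      by_cases h : P j j'
      · rw [if_pos h, if_pos hgood']; exact hfl
      · rw [if_neg h]; simpa using hnn
  have hS := length_le_G g (fun j => u (j / m) (j % m)) (fun j => v (j / m) (j % m))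
    (b * m) (b * m) (by
      intro j hj j' hj' T hT1 hT2
      have hjb : j / m < b := Nat.div_lt_of_lt_mul (by rwa [mul_comm])
      have hjb' : j' / m < b := Nat.div_lt_of_lt_mul (by rwa [mul_comm])
      have hjm : j % m < m := Nat.mod_lt _ hm0
      have hjm' : j' % m < m := Nat.mod_lt _ hm0
      by_cases hjj : j % m = j' % m
      · have hP : P j j' := ⟨hj, hj', hjj⟩
        simp only [g]
        rw [if_pos hP]
        split_ifs with hgd
        · have hin : j % m ∈ F (((j' / m : ℕ) : ℤ) - ((j / m : ℕ) : ℤ)) := by
            simp only [Good, bad'] at hgd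
            rw [if_pos (habs _ _ hjb hjb')] at hgd
            simp only [Finset.mem_sdiff, Finset.mem_range, not_and, not_not] at hgd
            exact hgd hjm
          have := hfar (j / m) hjb (j' / m) hjb' (j % m) hin T hT1 (by
            have hT2' : T.Sublist (v (j' / m) (j' % m)) := hT2
            rw [hjj]; exact hT2')
          exact Nat.le_floor this
        · exact hT1.length_le.trans (hlen _ hjb _ hjm)
      · rcases T with _ | ⟨a, T⟩
        · simp
        · exfalso
          exact hdis _ hjb _ hjb' _ hjm _ hjm' hjj a (hT1.subset (by simp))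
            (hT2.subset (by simp)))
    (b * m + b * m) (b * m) (b * m) 0 0 rfl (by omega) (by omega) S h1 h2
  -- windows
  obtain ⟨W, hW⟩ : ∃ W, W = ⌊(1 - κ / 4) * ((m : ℝ) * lam)⌋₊ := ⟨_, rfl⟩
  have hnn2 : 0 ≤ (1 - κ / 4) * ((m : ℝ) * lam) := mul_nonneg (by linarith) (by positivity)
  have hWb : ∀ x y, G g (2 * m) x y ≤ W := by
    intro x y
    rw [hW]
    exact Nat.le_floor (key x y)
  have hWW : (W : ℝ) ≤ (1 - κ / 4) * ((m : ℝ) * lam) := by
    rw [hW]; exact Nat.floor_le hnn2
  have htot : G g (b * (2 * m)) 0 0 ≤ b * W := G_mul_le g (2 * m) W hWb b 0 0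
  have he : b * m + b * m = b * (2 * m) := by ring
  rw [he] at hS
  have hS2 : (S.length : ℝ) ≤ b * W := by exact_mod_cast hS.trans htot
  calc (S.length : ℝ) ≤ b * W := hS2
    _ ≤ b * ((1 - κ / 4) * ((m : ℝ) * lam)) :=
        mul_le_mul_of_nonneg_left hWW (Nat.cast_nonneg _)
    _ = (1 - κ / 4) * (b * m * lam) := by ring

end Crest.Agent.R210
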