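import Mathlib

/-!
# R210 / Kill
The "killing" part of the level step: a character of the product group which is non-trivial at
`diag (N / M)` is killed either by the moves of many children or by the shift moves.
-/

set_option autoImplicit false

namespace Crest.Agent.R210

open Finset ComplexConjugate

/-- geometric sums of a root of unity -/
theorem norm_geom_sum_le {ζ : ℂ} {e : ℕ} (he : 0 < e) (h1 : ζ ^ e = 1) (hne : ζ ≠ 1) (B : ℕ) :
    ‖∑ s ∈ range B, ζ ^ s‖ ≤ e := by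
  have hpow : ζ ^ B = ζ ^ (B % e) := by
    conv_lhs => rw [← Nat.div_add_mod B e, pow_add, pow_mul, h1, one_pow, one_mul]
  have heq : ∑ s ∈ range B, ζ ^ s = ∑ s ∈ range (B % e), ζ ^ s := by
    have h2 : ζ - 1 ≠ 0 := sub_ne_zero.2 hne
    apply mul_left_cancel₀ h2
    rw [mul_comm, geom_sum_mul, mul_comm (ζ - 1), geom_sum_mul, hpow]
  have hnorm : ‖ζ‖ = 1 := by
    have : ‖ζ‖ ^ e = 1 := by rw [← norm_pow, h1, norm_one]
    exact (pow_eq_one_iff_of_nonneg (norm_nonneg _) he.ne').1 this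
  rw [heq]
  calc ‖∑ s ∈ range (B % e), ζ ^ s‖ ≤ ∑ s ∈ range (B % e), ‖ζ ^ s‖ := norm_sum_le _ _
    _ = (B % e : ℕ) := by simp [norm_pow, hnorm]
    _ ≤ e := by exact_mod_cast (Nat.mod_lt _ he).le

/-- the shift moves kill a character whose value `ζ ≠ 1` has order dividing `e ≤ B / 2` -/
theorem shift_kill {ζ : ℂ} {e : ℕ} (he : 0 < e) (h1 : ζ ^ e = 1) (hne : ζ ≠ 1) {B : ℕ}
    (hB : 2 * e ≤ B) : 1 ≤ ∑ s ∈ range B, (1 / (B : ℝ)) * ‖1 - ζ ^ s‖ ^ 2 := by
  have hnorm : ‖ζ‖ = 1 := by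
    have : ‖ζ‖ ^ e = 1 := by rw [← norm_pow, h1, norm_one]
    exact (pow_eq_one_iff_of_nonneg (norm_nonneg _) he.ne').1 this
  have hterm : ∀ s, ‖1 - ζ ^ s‖ ^ 2 = 2 - 2 * (ζ ^ s).re := by
    intro s
    have hs : Complex.normSq (ζ ^ s) = 1 := by
      rw [Complex.normSq_eq_norm_sq, norm_pow, hnorm]; simp
    rw [← Complex.normSq_eq_norm_sq, Complex.normSq_sub, hs, map_one, one_mul, Complex.conj_re]
    ring
  have hB0 : (0:ℝ) < B := by
    have : 0 < B := by omega
    exact_mod_cast this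
  have hsum : ∑ s ∈ range B, ‖1 - ζ ^ s‖ ^ 2 = 2 * B - 2 * (∑ s ∈ range B, ζ ^ s).re := by
    simp only [hterm, Finset.sum_sub_distrib, ← Finset.mul_sum, Complex.re_sum]
    simp
    ring
  rw [← Finset.mul_sum, hsum]
  have hre : (∑ s ∈ range B, ζ ^ s).re ≤ e :=
    (Complex.re_le_norm _).trans (norm_geom_sum_le he h1 hne B)
  have hB' : (2:ℝ) * e ≤ B := by exact_mod_cast hB
  rw [one_div, inv_mul_eq_div, le_div_iff₀ hB0]
  linarith

/-- a product of a non-trivial `M`-torsion element and a `P`-torsion element is non-trivial -/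
theorem mul_ne_one_of_coprime {ξ η : ℂ} {M P : ℕ} (hξ : ξ ^ M = 1) (hη : η ^ P = 1)
    (hco : Nat.Coprime M P) (hne : ξ ≠ 1) : ξ * η ≠ 1 := by
  intro h
  apply hne
  have hξP : ξ ^ P = 1 := by
    have : (ξ * η) ^ P = 1 := by rw [h, one_pow]
    rwa [mul_pow, hη, mul_one] at this
  have : orderOf ξ ∣ Nat.gcd M P :=
    Nat.dvd_gcd (orderOf_dvd_of_pow_eq_one hξ) (orderOf_dvd_of_pow_eq_one hξP)
  rw [hco] at this
  exact orderOf_eq_one_iff.1 (Nat.dvd_one.1 this)

section Step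

variable {N M m : ℕ} {A : Fin m → Type} [∀ i, AddCommGroup (A i)]

/-- the shift generator of the level step -/
def shiftGen (N M : ℕ) {m : ℕ} {A : Fin m → Type} [∀ i, AddCommGroup (A i)] (q : Fin m → ℕ)
    (dg : ∀ i, ZMod N →+ A i) : ∀ i, A i :=
  fun i => dg i (((N / M : ℕ) : ZMod N) + ((N / q i : ℕ) : ZMod N))

theorem char_pi_eq_prod (χ : AddChar (∀ i, A i) ℂ) (x : ∀ i, A i) :
    χ x = ∏ i, χ (Pi.single i (x i)) := by
  classical
  have hx : x = ∑ i, Pi.single i (x i) := by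
    rw [Finset.univ_sum_single]
  conv_lhs => rw [hx]
  have key : ∀ T : Finset (Fin m), χ (∑ i ∈ T, Pi.single i (x i)) =
      ∏ i ∈ T, χ (Pi.single i (x i)) := by
    intro T
    induction T using Finset.induction_on with
    | empty => simp
    | insert a T ha ih =>
      rw [Finset.sum_insert ha, Finset.prod_insert ha, AddChar.map_add_eq_mul, ih]
  exact key _

/-- **killing step.** -/
theorem kill_step [NeZero N] (q : Fin m → ℕ) (dg : ∀ i, ZMod N →+ A i)
    (hMq : ∀ i, M * q i ∣ N) (hco : ∀ i, Nat.Coprime M (q i))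
    {κ : Fin m → Type} [∀ i, Fintype (κ i)] (wt : ∀ i, κ i → ℝ) (hwt : ∀ i k, 0 ≤ wt i k)
    (mv : ∀ i, κ i → A i)
    (hchild : ∀ i, ∀ χ : AddChar (A i) ℂ, χ (dg i ((N / (M * q i) : ℕ) : ZMod N)) ≠ 1 →
      1 ≤ ∑ k, wt i k * ‖1 - χ (mv i k)‖ ^ 2)
    (w Q B : ℕ) (hw : 0 < w) (hQ : ∀ i, q i ≤ Q) (hB : 2 * (M * Q ^ w) ≤ B)
    (hQ1 : 1 ≤ Q) (hN0 : 0 < N)
    (χ : AddChar (∀ i, A i) ℂ) (hχ : χ (fun i => dg i ((N / M : ℕ) : ZMod N)) ≠ 1) :
    1 ≤ (∑ i, ∑ k, (wt i k / w) * ‖1 - χ (Pi.single i (mv i k))‖ ^ 2) +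
      ∑ s ∈ range B, (1 / (B : ℝ)) * ‖1 - χ (s • shiftGen N M q dg)‖ ^ 2 := by
  classical
  have hm : ∀ i, 0 < M ∧ 0 < q i := by
    intro i
    have := Nat.pos_of_dvd_of_pos (hMq i) hN0
    exact ⟨Nat.pos_of_mul_pos_left this |> fun h => by
      rcases Nat.eq_zero_or_pos M with h0 | h0
      · rw [h0, zero_mul] at this; omega
      · exact h0, by
      rcases Nat.eq_zero_or_pos (q i) with h0 | h0
      · rw [h0, mul_zero] at this; omega
      · exact h0⟩
  -- children characters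
  set χc : ∀ i, AddChar (A i) ℂ := fun i => χ.compAddMonoidHom (AddMonoidHom.single A i) with hχc
  have hχc_apply : ∀ i x, χc i x = χ (Pi.single i x) := fun i x => rfl
  set S : Finset (Fin m) := univ.filter fun i => χc i (dg i ((N / (M * q i) : ℕ) : ZMod N)) ≠ 1
    with hS
  have hshift0 : 0 ≤ ∑ s ∈ range B, (1 / (B : ℝ)) * ‖1 - χ (s • shiftGen N M q dg)‖ ^ 2 :=
    Finset.sum_nonneg fun _ _ => by positivity
  have hchild0 : ∀ i, 0 ≤ ∑ k, (wt i k / w) * ‖1 - χ (Pi.single i (mv i k))‖ ^ 2 := fun i =>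
    Finset.sum_nonneg fun k _ => mul_nonneg (div_nonneg (hwt i k) (Nat.cast_nonneg _))
      (by positivity)
  have hw' : (0:ℝ) < w := by exact_mod_cast hw
  rcases le_or_gt w S.card with hcase | hcase
  · -- many children
    have h1 : ∀ i ∈ S, (1:ℝ) / w ≤ ∑ k, (wt i k / w) * ‖1 - χ (Pi.single i (mv i k))‖ ^ 2 := by
      intro i hi
      have := hchild i (χc i) (Finset.mem_filter.1 hi).2
      simp only [hχc_apply] at this
      have e : ∑ k, (wt i k / w) * ‖1 - χ (Pi.single i (mv i k))‖ ^ 2 =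
          (∑ k, wt i k * ‖1 - χ (Pi.single i (mv i k))‖ ^ 2) / w := by
        rw [Finset.sum_div]
        apply Finset.sum_congr rfl
        intro k _
        ring
      rw [e]
      gcongr
    have h2 : (1:ℝ) ≤ ∑ i, ∑ k, (wt i k / w) * ‖1 - χ (Pi.single i (mv i k))‖ ^ 2 := by
      calc (1:ℝ) ≤ S.card * (1 / w) := by
            rw [mul_one_div, le_div_iff₀ hw', one_mul]
            exact_mod_cast hcase
        _ = ∑ i ∈ S, (1:ℝ) / w := by simp
        _ ≤ ∑ i ∈ S, ∑ k, (wt i k / w) * ‖1 - χ (Pi.single i (mv i k))‖ ^ 2 :=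
            Finset.sum_le_sum h1
        _ ≤ _ := Finset.sum_le_sum_of_subset_of_nonneg (Finset.subset_univ _)
            fun i _ _ => hchild0 i
    linarith
  · -- few children: shift moves
    rcases Nat.eq_zero_or_pos m with hm0 | hmpos
    · subst hm0
      exfalso
      apply hχ
      rw [char_pi_eq_prod]
      simp
    have hMpos : 0 < M := (hm ⟨0, hmpos⟩).1
    have hMN : M ∣ N := (Dvd.intro _ rfl).trans (hMq ⟨0, hmpos⟩)
    set ξ := χ (fun i => dg i ((N / M : ℕ) : ZMod N)) with hξ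
    set η : Fin m → ℂ := fun i => χ (Pi.single i (dg i ((N / q i : ℕ) : ZMod N))) with hη
    have hξM : ξ ^ M = 1 := by
      rw [hξ, ← AddChar.map_nsmul_eq_pow]
      have : M • (fun i => dg i ((N / M : ℕ) : ZMod N)) = 0 := by
        funext i
        simp only [Pi.smul_apply, Pi.zero_apply]
        rw [← map_nsmul, nsmul_eq_mul, ← Nat.cast_mul, Nat.mul_div_cancel' hMN,
          ZMod.natCast_self, map_zero]
      rw [this, AddChar.map_zero_eq_one]
    have hηS : ∀ i, i ∉ S → η i = 1 := by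
      intro i hi
      have h1 : χc i (dg i ((N / (M * q i) : ℕ) : ZMod N)) = 1 := by
        by_contra h
        exact hi (Finset.mem_filter.2 ⟨Finset.mem_univ _, h⟩)
      have h2 : ((N / q i : ℕ) : ZMod N) = M • ((N / (M * q i) : ℕ) : ZMod N) := by
        rw [nsmul_eq_mul, ← Nat.cast_mul]
        congr 1
        obtain ⟨c, hc⟩ := hMq i
        have hqi := (hm i).2
        rw [hc, Nat.mul_div_cancel_left _ (Nat.mul_pos hMpos hqi),
          show M * q i * c = q i * (M * c) by ring, Nat.mul_div_cancel_left _ hqi]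
      have h3 : η i = (χc i (dg i ((N / (M * q i) : ℕ) : ZMod N))) ^ M := by
        rw [← AddChar.map_nsmul_eq_pow, ← map_nsmul, ← h2]
        rfl
      rw [h3, h1, one_pow]
    have hηq : ∀ i, η i ^ q i = 1 := by
      intro i
      have h3 : η i = χc i (dg i ((N / q i : ℕ) : ZMod N)) := rfl
      rw [h3, ← AddChar.map_nsmul_eq_pow, ← map_nsmul, nsmul_eq_mul, ← Nat.cast_mul,
        Nat.mul_div_cancel' ((Dvd.intro_left _ rfl).trans (hMq i)), ZMod.natCast_self, map_zero,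
        AddChar.map_zero_eq_one]
    set P := ∏ i ∈ S, q i with hP
    have hprodη : ∏ i, η i = ∏ i ∈ S, η i :=
      (Finset.prod_subset (Finset.subset_univ S) fun i _ hi => hηS i hi).symm
    have hηP : (∏ i, η i) ^ P = 1 := by
      rw [hprodη, ← Finset.prod_pow]
      apply Finset.prod_eq_one
      intro i hi
      obtain ⟨c, hc⟩ : q i ∣ P := Finset.dvd_prod_of_mem q hi
      rw [hc, pow_mul, hηq, one_pow]
    have hcoP : Nat.Coprime M P := Nat.Coprime.prod_right fun i _ => hco i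
    have hζ : χ (shiftGen N M q dg) = ξ * ∏ i, η i := by
      rw [char_pi_eq_prod, hξ, char_pi_eq_prod, ← Finset.prod_mul_distrib]
      apply Finset.prod_congr rfl
      intro i _
      rw [hη, ← AddChar.map_add_eq_mul, ← Pi.single_add, ← map_add]
      rfl
    have hζne : ξ * ∏ i, η i ≠ 1 := mul_ne_one_of_coprime hξM hηP hcoP hχ
    have hζe : (ξ * ∏ i, η i) ^ (M * P) = 1 := by
      rw [mul_pow, pow_mul, hξM, one_pow, mul_comm M P, pow_mul, hηP, one_pow, one_mul]
    have hPpos : 0 < P := Finset.prod_pos fun i _ => (hm i).2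
    have hPle : P ≤ Q ^ w := by
      calc P ≤ ∏ i ∈ S, Q := Finset.prod_le_prod' fun i _ => hQ i
        _ = Q ^ S.card := by simp
        _ ≤ Q ^ w := Nat.pow_le_pow_right hQ1 hcase.le
    have hBe : 2 * (M * P) ≤ B :=
      le_trans (Nat.mul_le_mul_left _ (Nat.mul_le_mul_left _ hPle)) hB
    have hfin := shift_kill (Nat.mul_pos hMpos hPpos) hζe hζne hBe
    have heq : ∑ s ∈ range B, (1 / (B : ℝ)) * ‖1 - χ (s • shiftGen N M q dg)‖ ^ 2 =
        ∑ s ∈ range B, (1 / (B : ℝ)) * ‖1 - (ξ * ∏ i, η i) ^ s‖ ^ 2 := by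
      apply Finset.sum_congr rfl
      intro s _
      rw [AddChar.map_nsmul_eq_pow, hζ]
    rw [heq]
    have : 0 ≤ ∑ i, ∑ k, (wt i k / w) * ‖1 - χ (Pi.single i (mv i k))‖ ^ 2 :=
      Finset.sum_nonneg fun i _ => hchild0 i
    linarith

end Step

end Crest.Agent.R210
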