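import Mathlib
import Crest.Prelude.Def_EditDistance
import Crest.Agent.R210.Edit
import Crest.Agent.R210.Grid
import Crest.Agent.R210.Kill

/-!
# The recursive structure
-/

set_option autoImplicit false
open Crest.GeometryTopology.EditDistance

namespace Crest.Agent.R210

theorem norm_one_sub_sq (z : ℂ) (hz : ‖z‖ = 1) : ‖1 - z‖ ^ 2 = 2 - 2 * z.re := by
  rw [← Complex.normSq_eq_norm_sq, Complex.normSq_sub]
  have : Complex.normSq z = 1 := by rw [Complex.normSq_eq_norm_sq, hz]; norm_num
  simp [this]; ring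

/-- A level structure of modulus `M ∣ N` over the alphabet `α`: words `Y a` of length `L`
indexed by a finite abelian group `A`, with a homomorphism `diag : ZMod N → A`. -/
structure Lvl (α : Type) (N M L : ℕ) (κ C : ℝ) where
  A : Type
  grp : AddCommGroup A
  fin : Fintype A
  diag : ZMod N →+ A
  Y : A → List α
  len : ∀ a, (Y a).length = L
  far : ∀ (a : A) (δ : ZMod N), (M : ZMod N) * δ = 0 → δ ≠ 0 →
    LCSle (Y a) (Y (a + diag δ)) ((1 - κ) * L)
  K : Type
  finK : Fintype K
  z : K → A
  w : K → ℝ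
  c : K → ℝ
  w_nonneg : ∀ k, 0 ≤ w k
  cost : ∀ k a, (editDist (Y a) (Y (a + z k)) : ℝ) ≤ c k
  total : ∑ k, w k * c k ≤ C * L
  kill : ∀ χ : AddChar A ℂ, χ (diag ((N / M : ℕ) : ZMod N)) ≠ 1 →
    1 ≤ ∑ k, w k * ‖1 - χ (z k)‖ ^ 2

attribute [instance] Lvl.grp Lvl.fin Lvl.finK

/-- The base: one letter. -/
theorem Lvl.base (N M : ℕ) (hN : N ≠ 0) : Nonempty (Lvl (ZMod N) N M 1 1 (1 / 2)) := by
  have : NeZero N := ⟨hN⟩
  refine ⟨{
    A := ZMod N
    grp := inferInstance
    fin := inferInstance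
    diag := AddMonoidHom.id _
    Y := fun a => [a]
    len := fun a => rfl
    far := ?_
    K := ZMod N
    finK := inferInstance
    z := id
    w := fun _ => 1 / (2 * N)
    c := fun _ => 1
    w_nonneg := fun _ => by positivity
    cost := ?_
    total := ?_
    kill := ?_ }⟩
  · intro a δ _ hδ w hw1 hw2
    have : w = [] := by
      rcases List.sublist_singleton.mp hw1 with h | h
      · exact h
      · rcases List.sublist_singleton.mp hw2 with h' | h'
        · exact h'
        · exfalso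
          rw [h] at h'
          apply hδ
          simpa using h'
    simp [this]
  · intro k a
    exact_mod_cast editDist_singleton a (a + id k)
  · have : (0 : ℝ) < N := by positivity
    simp [ZMod.card]
    field_simp
    norm_num
  · intro χ hχ
    have hχ' : χ ≠ 0 := by
      rintro rfl
      simp at hχ
    have h0 : ∑ x, χ x = 0 := AddChar.sum_eq_zero_iff_ne_zero.mpr hχ'
    have h1 : ∀ x, ‖1 - χ x‖ ^ 2 = 2 - 2 * (χ x).re := fun x =>
      norm_one_sub_sq _ (AddChar.norm_apply χ x)
    simp only [id, h1]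
    rw [← Finset.mul_sum, Finset.sum_sub_distrib, ← Finset.mul_sum, ← Complex.re_sum, h0]
    have : (0 : ℝ) < N := by positivity
    simp [ZMod.card]
    rw [mul_assoc, mul_comm, mul_assoc]
    field_simp
    norm_num

/-- number of prime divisors -/
theorem card_dvd_le (m b : ℕ) (q : ℕ → ℕ) (hprime : ∀ i < m, (q i).Prime)
    (hinj : ∀ i < m, ∀ j < m, q i = q j → i = j) (hb : b ≤ 2 ^ (m / 2))
    (e : ℤ) (he0 : e ≠ 0) (he : |e| < b) :
    2 * ((Finset.range m).filter fun i => ((q i : ℤ) ∣ e)).card ≤ m := by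
  set S := (Finset.range m).filter fun i => ((q i : ℤ) ∣ e) with hS
  have hSm : ∀ i ∈ S, i < m := fun i hi => Finset.mem_range.mp (Finset.mem_filter.mp hi).1
  have hinjS : Set.InjOn q S := fun i hi j hj h => hinj i (hSm i hi) j (hSm j hj) h
  have h1 : ∏ i ∈ S, q i ∣ e.natAbs := by
    rw [← Finset.prod_image (f := fun x => x) hinjS]
    apply Finset.prod_primes_dvd
    · intro a ha
      obtain ⟨i, hi, rfl⟩ := Finset.mem_image.mp ha
      exact (hprime i (hSm i hi)).prime
    · intro a ha
      obtain ⟨i, hi, rfl⟩ := Finset.mem_image.mp ha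
      exact Int.natCast_dvd.mp (Finset.mem_filter.mp hi).2
  have h2 : 2 ^ S.card ≤ ∏ i ∈ S, q i := by
    calc 2 ^ S.card = ∏ i ∈ S, 2 := by simp
      _ ≤ ∏ i ∈ S, q i := Finset.prod_le_prod' fun i hi => (hprime i (hSm i hi)).two_le
  have h3 : ∏ i ∈ S, q i ≤ e.natAbs := Nat.le_of_dvd (Int.natAbs_pos.mpr he0) h1
  have h4 : e.natAbs < b := by
    have : ((e.natAbs : ℕ) : ℤ) < b := by rw [Int.natCast_natAbs]; exact he
    exact_mod_cast this
  have h5 : 2 ^ S.card < 2 ^ (m / 2) := by omega
  have h6 : S.card < m / 2 := (Nat.pow_lt_pow_iff_right (by norm_num)).mp h5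
  omega

/-- The block of the level step. -/
noncomputable def blk {α : Type} {N m : ℕ} {A : Fin m → Type} [∀ i, AddCommGroup (A i)]
    (Y : ∀ i, A i → List α) (dg : ∀ i, ZMod N →+ A i) (g : ℕ → ZMod N)
    (a : ∀ i, A i) (c i : ℕ) : List (Fin m × α) :=
  if h : i < m then
    (Y ⟨i, h⟩ (a ⟨i, h⟩ + dg ⟨i, h⟩ ((c : ZMod N) * g i))).map (Prod.mk ⟨i, h⟩)
  else []

/-- The word of the level step. -/
noncomputable def wrd {α : Type} {N m : ℕ} {A : Fin m → Type} [∀ i, AddCommGroup (A i)]
    (b : ℕ) (Y : ∀ i, A i → List α) (dg : ∀ i, ZMod N →+ A i) (g : ℕ → ZMod N)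
    (a : ∀ i, A i) : List (Fin m × α) :=
  (List.range b).flatMap fun c => (List.range m).flatMap fun i => blk Y dg g a c i

section Word

variable {α : Type} {N m : ℕ} {A : Fin m → Type} [∀ i, AddCommGroup (A i)]
    (Y : ∀ i, A i → List α) (dg : ∀ i, ZMod N →+ A i) (g : ℕ → ZMod N)

theorem length_blk (L : ℕ) (hL : ∀ i a, (Y i a).length = L) (a : ∀ i, A i) (c i : ℕ)
    (hi : i < m) : (blk Y dg g a c i).length = L := by
  simp [blk, hi, hL]

theorem length_row (L : ℕ) (hL : ∀ i a, (Y i a).length = L) (a : ∀ i, A i) (c : ℕ) :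
    ((List.range m).flatMap fun i => blk Y dg g a c i).length = m * L := by
  rw [List.length_flatMap]
  have : List.map (fun i => (blk Y dg g a c i).length) (List.range m)
      = List.map (fun _ => L) (List.range m) := by
    apply List.map_congr_left
    intro i hi
    exact length_blk Y dg g L hL a c i (List.mem_range.mp hi)
  rw [this]
  simp

theorem length_wrd (b L : ℕ) (hL : ∀ i a, (Y i a).length = L) (a : ∀ i, A i) :
    (wrd b Y dg g a).length = b * (m * L) := by
  unfold wrd
  rw [List.length_flatMap]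
  simp only [length_row Y dg g L hL]
  simp

theorem blk_disjoint (a a' : ∀ i, A i) (c c' i i' : ℕ) (hi : i < m) (hi' : i' < m)
    (hne : i ≠ i') : ∀ x ∈ blk Y dg g a c i, x ∉ blk Y dg g a' c' i' := by
  intro x hx hx'
  simp only [blk, hi, hi', dif_pos, List.mem_map] at hx hx'
  obtain ⟨y, _, rfl⟩ := hx
  obtain ⟨y', _, h⟩ := hx'
  have := congrArg (fun p : Fin m × α => p.1.val) h
  simp at this
  exact hne this.symm

end Word

section Moves

variable {α : Type} {N m : ℕ} {A : Fin m → Type} [∀ i, AddCommGroup (A i)]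
    (Y : ∀ i, A i → List α) (dg : ∀ i, ZMod N →+ A i) (g : ℕ → ZMod N)

theorem blk_shift (a : ∀ i, A i) (s c i : ℕ) :
    blk Y dg g (a + s • (fun i : Fin m => dg i (g i))) c i = blk Y dg g a (c + s) i := by
  unfold blk
  split_ifs with h
  · congr 2
    simp only [Pi.add_apply, Pi.smul_apply]
    rw [← map_nsmul, add_assoc, ← map_add]
    congr 2
    push_cast
    rw [nsmul_eq_mul]
    ring
  · rfl

theorem cost_shift (b L : ℕ) (hL : ∀ i a, (Y i a).length = L) (a : ∀ i, A i) (s : ℕ) :
    editDist (wrd b Y dg g a) (wrd b Y dg g (a + s • (fun i : Fin m => dg i (g i))))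
      ≤ 2 * s * (m * L) := by
  unfold wrd
  simp only [blk_shift]
  exact editDist_shift_le b s (m * L)
    (fun c => (List.range m).flatMap fun i => blk Y dg g a c i)
    (fun c => (length_row Y dg g L hL a c).le)

theorem cost_single (b : ℕ) (a : ∀ i, A i) (j : Fin m) (z : A j) (C : ℝ)
    (hC : ∀ x, (editDist (Y j x) (Y j (x + z)) : ℝ) ≤ C) :
    (editDist (wrd b Y dg g a) (wrd b Y dg g (a + Pi.single j z)) : ℝ) ≤ b * C := by
  have hrow : ∀ c, ((editDist ((List.range m).flatMap fun i => blk Y dg g a c i)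
      ((List.range m).flatMap fun i => blk Y dg g (a + Pi.single j z) c i) : ℕ) : ℝ) ≤ C := by
    intro c
    have h1 := editDist_flatMap_range_le m (fun i => blk Y dg g a c i)
      (fun i => blk Y dg g (a + Pi.single j z) c i)
    have h2 : ∑ i ∈ Finset.range m, editDist (blk Y dg g a c i)
        (blk Y dg g (a + Pi.single j z) c i)
        = editDist (blk Y dg g a c j) (blk Y dg g (a + Pi.single j z) c j) := by
      apply Finset.sum_eq_single_of_mem (j : ℕ) (Finset.mem_range.mpr j.2)
      intro i hi hij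
      have hi' := Finset.mem_range.mp hi
      have hne : (⟨i, hi'⟩ : Fin m) ≠ j := fun h => hij (by rw [← h])
      have : blk Y dg g (a + Pi.single j z) c i = blk Y dg g a c i := by
        unfold blk
        simp [hi', Pi.single_eq_of_ne hne]
      rw [this, editDist_self]
    have h3 : ((editDist (blk Y dg g a c j) (blk Y dg g (a + Pi.single j z) c j) : ℕ) : ℝ)
        ≤ C := by
      have h4 : blk Y dg g a c j = (Y j (a j + dg j ((c : ZMod N) * g j))).map (Prod.mk j) := by
        unfold blk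
        simp [j.2]
      have h5 : blk Y dg g (a + Pi.single j z) c j
          = (Y j (a j + dg j ((c : ZMod N) * g j) + z)).map (Prod.mk j) := by
        unfold blk
        simp only [j.2, dif_pos, Fin.eta, Pi.add_apply, Pi.single_eq_same]
        congr 2
        abel
      rw [h4, h5]
      refine le_trans ?_ (hC (a j + dg j ((c : ZMod N) * g j)))
      exact_mod_cast editDist_map_le _ _ _
    calc ((editDist _ _ : ℕ) : ℝ) ≤ ((∑ i ∈ Finset.range m, editDist (blk Y dg g a c i)
        (blk Y dg g (a + Pi.single j z) c i) : ℕ) : ℝ) := by exact_mod_cast h1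
      _ ≤ C := by rw [h2]; exact h3
  have h1 := editDist_flatMap_range_le b
    (fun c => (List.range m).flatMap fun i => blk Y dg g a c i)
    (fun c => (List.range m).flatMap fun i => blk Y dg g (a + Pi.single j z) c i)
  calc ((editDist (wrd b Y dg g a) (wrd b Y dg g (a + Pi.single j z)) : ℕ) : ℝ)
      ≤ ((∑ c ∈ Finset.range b, editDist ((List.range m).flatMap fun i => blk Y dg g a c i)
        ((List.range m).flatMap fun i => blk Y dg g (a + Pi.single j z) c i) : ℕ) : ℝ) := by
        exact_mod_cast h1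
    _ = ∑ c ∈ Finset.range b, ((editDist ((List.range m).flatMap fun i => blk Y dg g a c i)
        ((List.range m).flatMap fun i => blk Y dg g (a + Pi.single j z) c i) : ℕ) : ℝ) := by
        push_cast; rfl
    _ ≤ ∑ _c ∈ Finset.range b, C := Finset.sum_le_sum fun c _ => hrow c
    _ = b * C := by simp

end Moves

/-- The far property of the step. -/
theorem far_step {α : Type} {N M m b L : ℕ} {κ : ℝ} (q : ℕ → ℕ) 
    {A : Fin m → Type} [∀ i, AddCommGroup (A i)]
    (Y : ∀ i, A i → List α) (dg : ∀ i, ZMod N →+ A i)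
    (hN : N ≠ 0) (hm : 6 ≤ m) (hκ0 : 0 ≤ κ) (hκ1 : κ ≤ 1)
    (hprime : ∀ i < m, (q i).Prime)
    (hinj : ∀ i < m, ∀ j < m, q i = q j → i = j)
    (hcop : ∀ i < m, Nat.Coprime M (q i))
    (hMq : ∀ i < m, M * q i ∣ N)
    (hb : b ≤ 2 ^ (m / 2)) (hL : ∀ i a, (Y i a).length = L)
    (far : ∀ (i : Fin m) (a : A i) (δ : ZMod N), ((M * q i : ℕ) : ZMod N) * δ = 0 → δ ≠ 0 →
      LCSle (Y i a) (Y i (a + dg i δ)) ((1 - κ) * L))
    (a : ∀ i, A i) (δ : ZMod N) (hMδ : (M : ZMod N) * δ = 0) (hδ : δ ≠ 0) :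
    let g : ℕ → ZMod N := fun i => ((N / M : ℕ) : ZMod N) + ((N / q i : ℕ) : ZMod N)
    LCSle (wrd b Y dg g a) (wrd b Y dg g (a + fun i => dg i δ))
      ((1 - κ / 4) * ((b * (m * L) : ℕ) : ℝ)) := by
  intro g
  classical
  have hMN : M ∣ N := (Dvd.intro _ rfl).trans (hMq 0 (by omega))
  have hMg : ∀ i < m, ((M * q i : ℕ) : ZMod N) * g i = 0 := by
    intro i hi
    have h1 : (q i * (M * (N / M)) : ℕ) = q i * N := by rw [Nat.mul_div_cancel' hMN]
    have h2 : (M * (q i * (N / q i)) : ℕ) = M * N := by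
      rw [Nat.mul_div_cancel' ((Dvd.intro_left _ rfl).trans (hMq i hi))]
    have h1' := congrArg (Nat.cast : ℕ → ZMod N) h1
    have h2' := congrArg (Nat.cast : ℕ → ZMod N) h2
    push_cast at h1' h2'
    simp only [ZMod.natCast_self, mul_zero] at h1' h2'
    simp only [g]
    push_cast
    linear_combination h1' + h2'
  -- far set
  let F : ℤ → Finset ℕ := fun e => (Finset.range m).filter fun i => δ + (e : ZMod N) * g i ≠ 0
  have hbad : ∀ e : ℤ, ∀ i < m, δ + (e : ZMod N) * g i = 0 → e ≠ 0 ∧ (q i : ℤ) ∣ e := by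
    intro e i hi h
    constructor
    · rintro rfl
      simp at h
      exact hδ h
    · have hqN : q i ∣ N := (Dvd.intro_left _ rfl).trans (hMq i hi)
      obtain ⟨n', hn'⟩ := hqN
      have hqpos : 0 < q i := (hprime i hi).pos
      have hn'pos : 0 < n' := by
        rcases Nat.eq_zero_or_pos n' with h0 | h0
        · rw [h0, mul_zero] at hn'; exact absurd hn' hN
        · exact h0
      have h4 : N / q i = n' := by rw [hn', Nat.mul_div_cancel_left _ hqpos]
      have h1 : ((e * M * n' : ℤ) : ZMod N) = 0 := by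
        have h2 : (M : ZMod N) * (δ + (e : ZMod N) * g i) = 0 := by rw [h, mul_zero]
        have h3 : ((M * (N / M) : ℕ) : ZMod N) = 0 := by
          rw [Nat.mul_div_cancel' hMN, ZMod.natCast_self]
        simp only [g, h4] at h2
        rw [Nat.cast_mul] at h3
        push_cast
        linear_combination h2 - hMδ - (e : ZMod N) * h3
      rw [ZMod.intCast_zmod_eq_zero_iff_dvd] at h1
      have h1' : ((q i * n' : ℕ) : ℤ) ∣ e * M * n' := hn' ▸ h1
      push_cast at h1'
      have h5 : (q i : ℤ) ∣ e * M :=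
        Int.dvd_of_mul_dvd_mul_right (by exact_mod_cast hn'pos.ne') h1'
      exact (Int.isCoprime_iff_gcd_eq_one.mpr (by
        rw [Int.gcd_natCast_natCast]; exact (hcop i hi).symm)).dvd_of_dvd_mul_right h5
  have hFcard : ∀ e : ℤ, |e| < b → m ≤ 2 * (F e).card := by
    intro e he
    have hcompl : (F e).card + ((Finset.range m).filter
        fun i => ¬ (δ + (e : ZMod N) * g i ≠ 0)).card = m := by
      have := Finset.card_filter_add_card_filter_not (s := Finset.range m)
        (fun i => δ + (e : ZMod N) * g i ≠ 0)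
      simpa [F] using this
    have hle : 2 * ((Finset.range m).filter
        fun i => ¬ (δ + (e : ZMod N) * g i ≠ 0)).card ≤ m := by
      rcases eq_or_ne e 0 with rfl | he0
      · have : ((Finset.range m).filter
          fun i => ¬ (δ + ((0 : ℤ) : ZMod N) * g i ≠ 0)) = ∅ := by
          apply Finset.filter_false_of_mem
          intro i hi
          simpa using hδ
        rw [this]; simp
      · refine le_trans (Nat.mul_le_mul_left 2 (Finset.card_le_card ?_))
          (card_dvd_le m b q hprime hinj hb e he0 he)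
        intro i hi
        rw [Finset.mem_filter] at hi ⊢
        exact ⟨hi.1, (hbad e i (Finset.mem_range.mp hi.1) (not_not.mp hi.2)).2⟩
    omega
  have hgrid := grid_lcs m b L hm κ hκ0 hκ1 (fun c i => blk Y dg g a c i)
    (fun c i => blk Y dg g (a + fun i => dg i δ) c i)
    (fun c _ i hi => (length_blk Y dg g L hL a c i hi).le)
    (fun c _ c' _ i hi i' hi' hne => blk_disjoint Y dg g a _ c c' i i' hi hi' hne)
    F (fun e => Finset.filter_subset _ _) hFcard ?_
  · unfold wrd
    convert hgrid using 2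
    push_cast
    ring
  · intro c _ c' _ i hi
    have him : i < m := Finset.mem_range.mp (Finset.mem_filter.mp hi).1
    have hne := (Finset.mem_filter.mp hi).2
    have h1 : blk Y dg g a c i = (Y ⟨i, him⟩ (a ⟨i, him⟩ + dg ⟨i, him⟩ ((c : ZMod N) * g i))).map
        (Prod.mk ⟨i, him⟩) := by
      unfold blk; simp [him]
    have h2 : blk Y dg g (a + fun i => dg i δ) c' i
        = (Y ⟨i, him⟩ ((a ⟨i, him⟩ + dg ⟨i, him⟩ ((c : ZMod N) * g i)) +
            dg ⟨i, him⟩ (δ + (((c' : ℤ) - c : ℤ) : ZMod N) * g i))).map (Prod.mk ⟨i, him⟩) := by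
      unfold blk
      simp only [him, dif_pos, Pi.add_apply]
      congr 2
      rw [add_assoc, add_assoc, ← map_add, ← map_add]
      congr 2
      push_cast
      ring
    have hfar := far ⟨i, him⟩ (a ⟨i, him⟩ + dg ⟨i, him⟩ ((c : ZMod N) * g i))
      (δ + (((c' : ℤ) - c : ℤ) : ZMod N) * g i) ?_ hne
    · intro w hw1 hw2
      rw [h1] at hw1
      rw [h2] at hw2
      obtain ⟨w1, hw1', rfl⟩ := List.sublist_map_iff.mp hw1
      obtain ⟨w2, hw2', hw12⟩ := List.sublist_map_iff.mp hw2
      have : w1 = w2 := List.map_injective_iff.mpr (Prod.mk_right_injective _) hw12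
      subst this
      rw [List.length_map]
      exact hfar _ hw1' hw2'
    · have h3 := hMg i him
      push_cast at h3 ⊢
      linear_combination (q i : ZMod N) * hMδ + ((c' : ZMod N) - c) * h3

/-- The recursive step. -/
theorem Lvl.step {α : Type} {N M L m b B W Q : ℕ} {κ C : ℝ} (q : ℕ → ℕ)
    (hN : N ≠ 0) (hm : 6 ≤ m) (hκ0 : 0 ≤ κ) (hκ1 : κ ≤ 1)
    (hprime : ∀ i < m, (q i).Prime)
    (hinj : ∀ i < m, ∀ j < m, q i = q j → i = j)
    (hcop : ∀ i < m, Nat.Coprime M (q i))
    (hMq : ∀ i < m, M * q i ∣ N)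
    (hb : b ≤ 2 ^ (m / 2)) (hBb : B ≤ b)
    (hQ : ∀ i < m, q i ≤ Q) (hW : 0 < W)
    (hB : 2 * (M * Q ^ W) ≤ B)
    (child : ∀ i < m, Nonempty (Lvl α N (M * q i) L κ C)) :
    Nonempty (Lvl (Fin m × α) N M (b * (m * L)) (κ / 4) (C / W + 2 * B / b)) := by
  classical
  have : NeZero N := ⟨hN⟩
  let ch : ∀ i : Fin m, Lvl α N (M * q i) L κ C := fun i => (child i i.2).some
  let g : ℕ → ZMod N := fun i => ((N / M : ℕ) : ZMod N) + ((N / q i : ℕ) : ZMod N)
  have hM0 : 0 < M := by
    have := Nat.pos_of_dvd_of_pos (hMq 0 (by omega)) (Nat.pos_of_ne_zero hN)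
    exact Nat.pos_of_mul_pos_right this
  have hQ1 : 1 ≤ Q := le_trans (hprime 0 (by omega)).one_lt.le (hQ 0 (by omega))
  have hB0 : 0 < B := by
    have : 0 < M * Q ^ W := Nat.mul_pos hM0 (Nat.pow_pos (by omega))
    omega
  have hb0 : 0 < b := by omega
  refine ⟨{
    A := ∀ i, (ch i).A
    grp := inferInstance
    fin := inferInstance
    diag := AddMonoidHom.pi fun i => (ch i).diag
    Y := fun a => wrd b (fun i => (ch i).Y) (fun i => (ch i).diag) g a
    len := fun a => length_wrd _ _ _ b L (fun i a => (ch i).len a) a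
    far := ?_
    K := (Σ i : Fin m, (ch i).K) ⊕ Fin B
    finK := inferInstance
    z := Sum.elim (fun p => Pi.single p.1 ((ch p.1).z p.2))
      (fun s => (s : ℕ) • (fun i : Fin m => (ch i).diag (g i)))
    w := Sum.elim (fun p => (ch p.1).w p.2 / W) (fun _ => 1 / (B : ℝ))
    c := Sum.elim (fun p => b * (ch p.1).c p.2) (fun _ => 2 * B * (m * L))
    w_nonneg := ?_
    cost := ?_
    total := ?_
    kill := ?_ }⟩
  · intro a δ hMδ hδ
    exact far_step q (fun i => (ch i).Y) (fun i => (ch i).diag) hN hm hκ0 hκ1 hprime hinj hcop hMq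
      hb (fun i a => (ch i).len a) (fun i a δ h1 h2 => (ch i).far a δ h1 h2) a δ hMδ hδ
  · rintro (p | s)
    · exact div_nonneg ((ch p.1).w_nonneg p.2) (Nat.cast_nonneg _)
    · simp
  · rintro (p | s) a
    · exact cost_single _ _ g b a p.1 ((ch p.1).z p.2) ((ch p.1).c p.2)
        (fun x => (ch p.1).cost p.2 x)
    · have h1 := cost_shift (fun i => (ch i).Y) (fun i => (ch i).diag) g b L
        (fun i a => (ch i).len a) a s
      have h2 : 2 * (s : ℕ) * (m * L) ≤ 2 * B * (m * L) := by
        have := s.2.le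
        gcongr
      simp only [Sum.elim_inr]
      exact_mod_cast h1.trans h2
  · rw [Fintype.sum_sum_type, Fintype.sum_sigma]
    simp only [Sum.elim_inl, Sum.elim_inr]
    have h1 : ∀ i : Fin m, ∑ k, (ch i).w k / W * (b * (ch i).c k) ≤ b / W * (C * L) := by
      intro i
      calc ∑ k, (ch i).w k / W * (b * (ch i).c k)
          = b / W * ∑ k, (ch i).w k * (ch i).c k := by
            rw [Finset.mul_sum]; apply Finset.sum_congr rfl; intro k _; ring
        _ ≤ b / W * (C * L) := by
            have := (ch i).total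
            gcongr
    have h2 : ∑ i : Fin m, ∑ k, (ch i).w k / W * (b * (ch i).c k) ≤ m * (b / W * (C * L)) := by
      calc _ ≤ ∑ i : Fin m, (b / W * (C * L) : ℝ) := Finset.sum_le_sum fun i _ => h1 i
        _ = _ := by simp
    have hB0' : (0 : ℝ) < B := by exact_mod_cast hB0
    have hb0' : (0 : ℝ) < b := by exact_mod_cast hb0
    have h3 : ∑ _s : Fin B, 1 / (B : ℝ) * (2 * B * (m * L)) = 2 * B * (m * L) := by
      simp
      field_simp
    rw [h3]
    push_cast
    have h4 : (C / W + 2 * B / b) * (b * (m * L)) = m * (b / W * (C * L)) + 2 * B * (m * L) := by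
      field_simp
    rw [h4]
    linarith
  · intro χ hχ
    rw [Fintype.sum_sum_type, Fintype.sum_sigma]
    simp only [Sum.elim_inl, Sum.elim_inr]
    have h := kill_step (N := N) (M := M) (A := fun i => (ch i).A) (fun i : Fin m => q i)
      (fun i => (ch i).diag) (fun i => hMq i i.2) (fun i => hcop i i.2)
      (κ := fun i => (ch i).K) (fun i => (ch i).w) (fun i => (ch i).w_nonneg)
      (fun i => (ch i).z) (fun i χ hχ => (ch i).kill χ hχ) W Q B hW (fun i => hQ i i.2)
      hB hQ1 (Nat.pos_of_ne_zero hN) χ hχ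
    have h5 : ∑ s : Fin B, 1 / (B : ℝ) *
        ‖1 - χ ((s : ℕ) • (fun i : Fin m => (ch i).diag (g i)))‖ ^ 2
        = ∑ s ∈ Finset.range B, (1 / (B : ℝ)) *
          ‖1 - χ (s • shiftGen N M (fun i : Fin m => q i) (fun i => (ch i).diag))‖ ^ 2 := by
      rw [Finset.sum_range]
      rfl
    rw [h5]
    exact h

end Crest.Agent.R210
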