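import Mathlib
import Crest.Prelude.Def_EditDistance
import Crest.Agent.R210.Edit
import Crest.Agent.R210.Code
import Crest.Agent.R210.Grid
import Crest.Agent.R210.Level
import Crest.Agent.R210.Fourier

/-!
# From a level structure to a distortion bound
-/

set_option autoImplicit false
open Crest.GeometryTopology.EditDistance

namespace Crest.Agent.R210

theorem distortion_lower {A : Type} [AddCommGroup A] [Fintype A] {K : Type} [Fintype K]
    (n : ℕ) (Y : A → List Bool) (hlen : ∀ a, (Y a).length = n)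
    (Z : A) (z : K → A) (w c : K → ℝ) (hw : ∀ k, 0 ≤ w k)
    (hc : ∀ k a, (editDist (Y a) (Y (a + z k)) : ℝ) ≤ c k)
    (dfar : ℝ) (hd : 0 < dfar) (hfar : ∀ a, dfar ≤ (editDist (Y a) (Y (a + Z)) : ℝ))
    (hchar : ∀ χ : AddChar A ℂ, ‖1 - χ Z‖ ^ 2 ≤ ∑ k, w k * ‖1 - χ (z k)‖ ^ 2)
    (f : List Bool → lp (fun _ : ℕ => ℝ) 1) (s D : ℝ) (hs : 0 < s)
    (hf : ∀ x y : List Bool, x.length = n → y.length = n → x ≠ y →
      s * (editDist x y : ℝ) ≤ ‖f x - f y‖ ∧ ‖f x - f y‖ ≤ D * s * (editDist x y : ℝ)) :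
    dfar ≤ D * ∑ k, w k * c k := by
  have hne : ∀ a, Y a ≠ Y (a + Z) := by
    intro a h
    have h1 := hfar a
    rw [h, editDist_self] at h1
    simp at h1
    linarith
  have hD : 0 < D := by
    have h1 := hf (Y 0) (Y (0 + Z)) (hlen _) (hlen _) (hne 0)
    have h2 := hfar 0
    have h3 : 0 < (editDist (Y 0) (Y (0 + Z)) : ℝ) := by linarith
    have h4 : s * (editDist (Y 0) (Y (0 + Z)) : ℝ) ≤ D * (s * (editDist (Y 0) (Y (0 + Z)) : ℝ)) := by
      have := h1.1.trans h1.2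
      linarith
    by_contra hD
    have h5 : 0 < s * (editDist (Y 0) (Y (0 + Z)) : ℝ) := by positivity
    nlinarith
  have hcard : (0 : ℝ) < Fintype.card A := by exact_mod_cast Fintype.card_pos
  have key := fourier_lp Z z w hchar (fun a => f (Y a))
  have h1 : (Fintype.card A : ℝ) * (s * dfar) ≤ ∑ a, ‖f (Y a) - f (Y (a + Z))‖ := by
    calc (Fintype.card A : ℝ) * (s * dfar) = ∑ _a : A, s * dfar := by simp
      _ ≤ _ := Finset.sum_le_sum fun a _ => by
        refine le_trans ?_ (hf (Y a) (Y (a + Z)) (hlen _) (hlen _) (hne a)).1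
        have := hfar a
        gcongr
  have h2 : ∑ k, w k * ∑ a, ‖f (Y a) - f (Y (a + z k))‖
      ≤ ∑ k, w k * ((Fintype.card A : ℝ) * (D * s * c k)) := by
    apply Finset.sum_le_sum
    intro k _
    apply mul_le_mul_of_nonneg_left _ (hw k)
    calc ∑ a, ‖f (Y a) - f (Y (a + z k))‖ ≤ ∑ _a : A, D * s * c k := by
          apply Finset.sum_le_sum
          intro a _
          have hck := hc k a
          by_cases h : Y a = Y (a + z k)
          · rw [h]
            simp only [sub_self, norm_zero]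
            have : 0 ≤ c k := le_trans (Nat.cast_nonneg _) hck
            positivity
          · refine le_trans (hf _ _ (hlen _) (hlen _) h).2 ?_
            gcongr
      _ = _ := by simp
  have h3 : (Fintype.card A : ℝ) * (s * dfar) ≤ (Fintype.card A : ℝ) * (s * (D * ∑ k, w k * c k)) := by
    calc _ ≤ _ := h1
      _ ≤ _ := key
      _ ≤ _ := h2
      _ = _ := by
        rw [Finset.mul_sum, Finset.mul_sum, Finset.mul_sum]
        apply Finset.sum_congr rfl
        intro k _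
        ring
  exact le_of_mul_le_mul_left (le_of_mul_le_mul_left h3 hcard) hs

theorem final_of_lvl {S : Type} [Fintype S] {N L h : ℕ} {κ C : ℝ} (hN2 : 2 ∣ N) (hN0 : N ≠ 0)
    (hcard : Fintype.card S ≤ 2 ^ h) (hκ : 0 < κ) (hC : 0 < C) (hL : 0 < L)
    (Lv : Lvl S N 2 L κ C)
    (f : List Bool → lp (fun _ : ℕ => ℝ) 1) (s D : ℝ) (hs : 0 < s)
    (hf : ∀ x y : List Bool, x.length = (2 * h + 3) * L → y.length = (2 * h + 3) * L → x ≠ y →
      s * (editDist x y : ℝ) ≤ ‖f x - f y‖ ∧ ‖f x - f y‖ ≤ D * s * (editDist x y : ℝ)) :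
    κ / (4 * ((2 * h + 3 : ℕ) : ℝ) * C) ≤ D := by
  have : NeZero N := ⟨hN0⟩
  obtain ⟨enc, henc, hlow⟩ := exists_code S h hcard
  set δ : ZMod N := ((N / 2 : ℕ) : ZMod N) with hδ
  have hδ0 : δ ≠ 0 := by
    rw [hδ, Ne, ZMod.natCast_eq_zero_iff]
    intro hdvd
    have h1 : 0 < N / 2 := by
      obtain ⟨n', rfl⟩ := hN2
      omega
    have := Nat.le_of_dvd h1 hdvd
    omega
  have h2δ : ((2 : ℕ) : ZMod N) * δ = 0 := by
    rw [hδ, ← Nat.cast_mul, Nat.mul_div_cancel' hN2, ZMod.natCast_self]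
  have hκL : 0 < κ * L := by positivity
  have key := distortion_lower ((2 * h + 3) * L) (fun a => (Lv.Y a).flatMap enc)
    (fun a => ?_) (Lv.diag δ) Lv.z (fun k => 4 * Lv.w k)
    (fun k => ((2 * h + 3 : ℕ) : ℝ) * Lv.c k)
    (fun k => mul_nonneg (by norm_num) (Lv.w_nonneg k)) (fun k a => ?_)
    (κ * L) hκL (fun a => ?_) (fun χ => ?_) f s D hs hf
  · have hsum : ∑ k, 4 * Lv.w k * (((2 * h + 3 : ℕ) : ℝ) * Lv.c k)
        = 4 * ((2 * h + 3 : ℕ) : ℝ) * ∑ k, Lv.w k * Lv.c k := by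
      rw [Finset.mul_sum]
      apply Finset.sum_congr rfl
      intro k _; ring
    rw [hsum] at key
    have htot := Lv.total
    have hℓ : (0 : ℝ) < ((2 * h + 3 : ℕ) : ℝ) := by positivity
    set T := ∑ k, Lv.w k * Lv.c k with hT
    have hT0 : 0 ≤ T := Finset.sum_nonneg fun k _ => mul_nonneg (Lv.w_nonneg k)
      (le_trans (Nat.cast_nonneg _) (Lv.cost k 0))
    have hD : 0 < D := by
      by_contra hD
      have : D * (4 * ((2 * h + 3 : ℕ) : ℝ) * T) ≤ 0 :=
        mul_nonpos_of_nonpos_of_nonneg (not_lt.mp hD) (by positivity)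
      linarith
    rw [div_le_iff₀ (by positivity)]
    have hL' : (0 : ℝ) < L := by exact_mod_cast hL
    have h3 : D * (4 * ((2 * h + 3 : ℕ) : ℝ) * T) ≤ D * (4 * ((2 * h + 3 : ℕ) : ℝ) * (C * L)) := by
      gcongr
    have h4 : κ * L ≤ (D * (4 * ((2 * h + 3 : ℕ) : ℝ) * C)) * L := by
      calc κ * L ≤ _ := key
        _ ≤ _ := h3
        _ = _ := by ring
    exact le_of_mul_le_mul_right h4 hL'
  · rw [List.length_flatMap]
    simp only [henc]
    simp [Lv.len, mul_comm]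
  · have h1 := editDist_flatMap_le enc (2 * h + 3) henc (Lv.Y a) (Lv.Y (a + Lv.z k))
    calc ((editDist ((Lv.Y a).flatMap enc) ((Lv.Y (a + Lv.z k)).flatMap enc) : ℕ) : ℝ)
        ≤ (((2 * h + 3) * editDist (Lv.Y a) (Lv.Y (a + Lv.z k)) : ℕ) : ℝ) := by
          exact_mod_cast h1
      _ = ((2 * h + 3 : ℕ) : ℝ) * (editDist (Lv.Y a) (Lv.Y (a + Lv.z k)) : ℝ) := by
          push_cast; ring
      _ ≤ _ := by
          have := Lv.cost k a
          gcongr
  · obtain ⟨w, hw1, hw2, hw3⟩ := hlow (Lv.Y a) (Lv.Y (a + Lv.diag δ))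
    have h1 := Lv.far a δ h2δ hδ0 w hw1 hw2
    rw [Lv.len] at hw3
    have h2 : (L : ℝ) ≤ w.length + editDist ((Lv.Y a).flatMap enc)
        ((Lv.Y (a + Lv.diag δ)).flatMap enc) := by exact_mod_cast hw3
    linarith
  · by_cases hχ : χ (Lv.diag δ) = 1
    · rw [hχ]
      simp only [sub_self, norm_zero]
      have : 0 ≤ ∑ k, 4 * Lv.w k * ‖1 - χ (Lv.z k)‖ ^ 2 :=
        Finset.sum_nonneg fun k _ => mul_nonneg (mul_nonneg (by norm_num) (Lv.w_nonneg k))
          (by positivity)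
      simpa using this
    · have h1 := Lv.kill χ hχ
      have h2 : ‖1 - χ (Lv.diag δ)‖ ≤ 2 := by
        calc ‖1 - χ (Lv.diag δ)‖ ≤ ‖(1 : ℂ)‖ + ‖χ (Lv.diag δ)‖ := norm_sub_le _ _
          _ = 2 := by rw [AddChar.norm_apply]; norm_num
      have h3 : ‖1 - χ (Lv.diag δ)‖ ^ 2 ≤ 4 := by nlinarith [norm_nonneg (1 - χ (Lv.diag δ))]
      calc ‖1 - χ (Lv.diag δ)‖ ^ 2 ≤ 4 * 1 := by linarith
        _ ≤ 4 * ∑ k, Lv.w k * ‖1 - χ (Lv.z k)‖ ^ 2 := by gcongr
        _ = ∑ k, 4 * Lv.w k * ‖1 - χ (Lv.z k)‖ ^ 2 := by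
          rw [Finset.mul_sum]; apply Finset.sum_congr rfl; intro k _; ring

end Crest.Agent.R210
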