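import Mathlib

/-!
# Asymptotics of the parameters
-/

set_option autoImplicit false

namespace Crest.Agent.R210

open Real

/-- General asymptotic lemma: lengths `n k ≤ 2^(A k 4^k)`, distortions `≥ 2^(k 2^k / 2)`. -/
theorem params_asymp (n : ℕ → ℕ) (E : ℕ → ℝ) (k₀ A : ℕ)
    (hn : ∀ k, k₀ ≤ k → n k ≤ 2 ^ (A * k * 4 ^ k))
    (hE : ∀ k, k₀ ≤ k → Real.exp (Real.log 2 * (k * 2 ^ k / 2)) ≤ E k) :
    ∃ c : ℝ, 0 < c ∧ ∃ d₀ : ℕ, ∀ d : ℕ, d₀ ≤ d → ∃ k, k₀ ≤ k ∧ n k ≤ d ∧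
      Real.exp (c * Real.sqrt (Real.log d * Real.log (Real.log d))) ≤ E k := by
  -- WLOG A ≥ 1, k₀ ≥ 1
  obtain ⟨A', hA', hA1⟩ : ∃ A' : ℕ, A ≤ A' ∧ 1 ≤ A' := ⟨A + 1, by omega, by omega⟩
  obtain ⟨k₁, hk₁, hk1⟩ : ∃ k₁ : ℕ, k₀ ≤ k₁ ∧ 1 ≤ k₁ := ⟨k₀ + 1, by omega, by omega⟩
  have hl2 : 0 < Real.log 2 := Real.log_pos (by norm_num)
  have hl2' : Real.log 2 ≤ 1 := by
    have := Real.log_two_lt_d9
    linarith
  set H : ℝ := Real.log (8 * A') + 3 with hH
  have hH3 : 3 ≤ H := by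
    have : 0 ≤ Real.log (8 * A') := by
      apply Real.log_nonneg
      have : (1 : ℝ) ≤ A' := by exact_mod_cast hA1
      linarith
    linarith
  set K : ℝ := 8 * A' * H with hK
  have hA1' : (1 : ℝ) ≤ A' := by exact_mod_cast hA1
  have hKpos : 0 < K := by positivity
  refine ⟨Real.log 2 / 2 / Real.sqrt K, by positivity, 2 ^ (A' * k₁ * 4 ^ k₁), ?_⟩
  intro d hd
  -- k = the largest k with 2^(A' k 4^k) ≤ d
  have hmono : ∀ a b : ℕ, a ≤ b → A' * a * 4 ^ a ≤ A' * b * 4 ^ b := by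
    intro a b hab
    exact Nat.mul_le_mul (Nat.mul_le_mul_left _ hab) (Nat.pow_le_pow_right (by norm_num) hab)
  have hex : ∃ k, d < 2 ^ (A' * k * 4 ^ k) := by
    refine ⟨d, ?_⟩
    have h1 : d ≤ A' * d * 4 ^ d := by
      calc d = 1 * d * 1 := by ring
        _ ≤ A' * d * 4 ^ d := Nat.mul_le_mul (Nat.mul_le_mul_right _ hA1) (Nat.one_le_pow _ _ (by norm_num))
    calc d < 2 ^ d := Nat.lt_two_pow_self
      _ ≤ 2 ^ (A' * d * 4 ^ d) := Nat.pow_le_pow_right (by norm_num) h1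
  classical
  obtain ⟨k, hk, hk'⟩ : ∃ k, 2 ^ (A' * k * 4 ^ k) ≤ d ∧ d < 2 ^ (A' * (k + 1) * 4 ^ (k + 1)) := by
    have hspec := Nat.find_spec hex
    have hpos : Nat.find hex ≠ 0 := by
      intro h0
      rw [h0] at hspec
      have : 1 ≤ d := le_trans (Nat.one_le_pow _ _ (by norm_num)) hd
      simp at hspec
      omega
    obtain ⟨j, hj⟩ := Nat.exists_eq_succ_of_ne_zero hpos
    refine ⟨j, ?_, ?_⟩
    · have := Nat.find_min hex (m := j) (by omega)
      omega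
    · rw [hj] at hspec
      exact hspec
  have hkk : k₁ ≤ k := by
    by_contra hcon
    push Not at hcon
    have h1 := hmono (k + 1) k₁ hcon
    have h2 : 2 ^ (A' * (k + 1) * 4 ^ (k + 1)) ≤ 2 ^ (A' * k₁ * 4 ^ k₁) :=
      Nat.pow_le_pow_right (by norm_num) h1
    omega
  have hk1' : (1 : ℝ) ≤ k := by exact_mod_cast (hk1.trans hkk)
  refine ⟨k, hk₁.trans hkk, ?_, ?_⟩
  · refine (hn k (hk₁.trans hkk)).trans (le_trans ?_ hk)
    apply Nat.pow_le_pow_right (by norm_num)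
    exact Nat.mul_le_mul_right _ (Nat.mul_le_mul_right _ hA')
  refine le_trans ?_ (hE k (hk₁.trans hkk))
  apply Real.exp_le_exp.mpr
  have hd1 : (1 : ℝ) ≤ d := by
    have : 1 ≤ d := le_trans (Nat.one_le_pow _ _ (by norm_num)) hk
    exact_mod_cast this
  have hlogd : Real.log d ≤ 8 * A' * (k * 4 ^ k) := by
    have h1 : (d : ℝ) ≤ 2 ^ (A' * (k + 1) * 4 ^ (k + 1)) := by
      exact_mod_cast hk'.le
    have h2 : Real.log d ≤ Real.log (2 ^ (A' * (k + 1) * 4 ^ (k + 1))) :=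
      Real.log_le_log (by linarith) h1
    rw [Real.log_pow] at h2
    push_cast at h2
    refine h2.trans ?_
    have h3 : (A' : ℝ) * (k + 1) * 4 ^ (k + 1) * Real.log 2 ≤ A' * (k + 1) * 4 ^ (k + 1) * 1 := by
      apply mul_le_mul_of_nonneg_left hl2' (by positivity)
    refine h3.trans ?_
    have h4 : ((k : ℝ) + 1) ≤ 2 * k := by linarith
    calc (A' : ℝ) * (k + 1) * 4 ^ (k + 1) * 1 = (4 * A' * 4 ^ k) * (k + 1) := by ring
      _ ≤ (4 * A' * 4 ^ k) * (2 * k) := mul_le_mul_of_nonneg_left h4 (by positivity)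
      _ = 8 * A' * (k * 4 ^ k) := by ring
  have hlogd0 : 0 ≤ Real.log d := Real.log_nonneg hd1
  have hloglog : Real.log (Real.log d) ≤ H * k := by
    rcases hlogd0.eq_or_lt with h0 | h0
    · rw [← h0]; simp; positivity
    have h1 : Real.log (Real.log d) ≤ Real.log (8 * A' * (k * 4 ^ k)) := Real.log_le_log h0 hlogd
    refine h1.trans ?_
    rw [Real.log_mul (x := 8 * (A' : ℝ)) (y := k * 4 ^ k) (by positivity) (by positivity),
      Real.log_mul (x := (k : ℝ)) (y := 4 ^ k) (by positivity) (by positivity),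
      Real.log_pow]
    have h2 : Real.log k ≤ k := by
      have := Real.log_le_sub_one_of_pos (show (0 : ℝ) < k by linarith)
      linarith
    have h3 : Real.log 4 ≤ 2 := by
      rw [show (4 : ℝ) = 2 ^ 2 by norm_num, Real.log_pow]
      push_cast
      linarith
    have h4 : 0 ≤ Real.log (8 * A') := Real.log_nonneg (by linarith)
    have h5 : Real.log (8 * A') ≤ Real.log (8 * A') * k := le_mul_of_one_le_right h4 hk1'
    have h6 : (k : ℝ) * Real.log 4 ≤ k * 2 := mul_le_mul_of_nonneg_left h3 (by linarith)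
    have h7 : H * k = Real.log (8 * A') * k + 3 * k := by rw [hH]; ring
    rw [h7]
    linarith
  have hprod : Real.log d * Real.log (Real.log d) ≤ K * (k * 2 ^ k) ^ 2 := by
    calc Real.log d * Real.log (Real.log d) ≤ Real.log d * (H * k) :=
          mul_le_mul_of_nonneg_left hloglog hlogd0
      _ ≤ (8 * A' * (k * 4 ^ k)) * (H * k) := mul_le_mul_of_nonneg_right hlogd (by positivity)
      _ = K * (k * 2 ^ k) ^ 2 := by
          rw [hK, show (4 : ℝ) = 2 ^ 2 by norm_num, ← pow_mul]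
          ring
  have hsqrt : Real.sqrt (Real.log d * Real.log (Real.log d)) ≤ Real.sqrt K * (k * 2 ^ k) := by
    calc Real.sqrt (Real.log d * Real.log (Real.log d)) ≤ Real.sqrt (K * (k * 2 ^ k) ^ 2) :=
          Real.sqrt_le_sqrt hprod
      _ = Real.sqrt K * (k * 2 ^ k) := by
          rw [Real.sqrt_mul hKpos.le, Real.sqrt_sq (by positivity)]
  have hsK : 0 < Real.sqrt K := Real.sqrt_pos.mpr hKpos
  calc Real.log 2 / 2 / Real.sqrt K * Real.sqrt (Real.log d * Real.log (Real.log d))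
      ≤ Real.log 2 / 2 / Real.sqrt K * (Real.sqrt K * (k * 2 ^ k)) :=
        mul_le_mul_of_nonneg_left hsqrt (by positivity)
    _ = Real.log 2 * (k * 2 ^ k / 2) := by
        field_simp

/-- code length for `h = 2 k 2^k + 1 + 4 k 8^k` bits per letter -/
def codeLen (k : ℕ) : ℕ := 2 * (2 * k * 2 ^ k + 1 + 4 * k * 8 ^ k) + 3

theorem codeLen_le (k : ℕ) (hk : 1 ≤ k) : codeLen k ≤ 2 ^ (4 * k + 5) := by
  unfold codeLen
  have h1 : k ≤ 2 ^ k := Nat.lt_two_pow_self.le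
  have h2 : (2 : ℕ) ^ k ≤ 8 ^ k := Nat.pow_le_pow_left (by norm_num) k
  have h3 : 1 ≤ (8 : ℕ) ^ k := Nat.one_le_pow _ _ (by norm_num)
  have h4 : (2 : ℕ) ^ (4 * k + 5) = 32 * (2 ^ k * 8 ^ k) := by
    rw [pow_add, pow_mul, ← mul_pow]; norm_num; ring
  rw [h4]
  have h5 : k * 2 ^ k ≤ 2 ^ k * 8 ^ k := Nat.mul_le_mul h1 h2
  have h6 : k * 8 ^ k ≤ 2 ^ k * 8 ^ k := Nat.mul_le_mul_right _ h1
  have h7 : 1 ≤ 2 ^ k * 8 ^ k := by
    have : 1 ≤ (2 : ℕ) ^ k := Nat.one_le_pow _ _ (by norm_num)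
    nlinarith
  nlinarith

theorem params_len (k : ℕ) (hk : 1 ≤ k) :
    codeLen k * ((2 ^ (5 + 9 * k * 2 ^ k)) * 4 ^ k) ^ (2 ^ k) ≤ 2 ^ (25 * k * 4 ^ k) := by
  have h1 : ((2 ^ (5 + 9 * k * 2 ^ k)) * 4 ^ k) ^ (2 ^ k) =
      2 ^ ((5 + 9 * k * 2 ^ k + 2 * k) * 2 ^ k) := by
    rw [show (4 : ℕ) = 2 ^ 2 by norm_num, ← pow_mul, ← pow_add, ← pow_mul]
  rw [h1]
  refine (Nat.mul_le_mul_right _ (codeLen_le k hk)).trans ?_
  rw [← pow_add]
  apply Nat.pow_le_pow_right (by norm_num)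
  have h4 : (4 : ℕ) ^ k = 2 ^ k * 2 ^ k := by rw [← mul_pow]; norm_num
  rw [h4]
  have h2 : 1 ≤ (2 : ℕ) ^ k := Nat.one_le_pow _ _ (by norm_num)
  set x := (2 : ℕ) ^ k with hx
  have h5 : x ≤ x * x := Nat.le_mul_self x
  have h6 : 1 ≤ x * x := h2.trans h5
  have e1 : 4 * k ≤ 4 * (k * (x * x)) := Nat.mul_le_mul_left _ (Nat.le_mul_of_pos_right k (by omega))
  have e2 : 1 ≤ k * (x * x) := Nat.mul_le_mul hk h6
  have e3 : x ≤ k * (x * x) := h5.trans (Nat.le_mul_of_pos_left _ (by omega))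
  have e4 : k * x ≤ k * (x * x) := Nat.mul_le_mul_left _ h5
  calc 4 * k + 5 + (5 + 9 * k * x + 2 * k) * x = 4 * k + 5 + 5 * x + 9 * (k * (x * x)) + 2 * (k * x) := by ring
    _ ≤ 25 * (k * (x * x)) := by omega
    _ = 25 * k * (x * x) := by ring

theorem params_dist (k : ℕ) (hk : 6 ≤ k) :
    Real.exp (Real.log 2 * (k * 2 ^ k / 2)) ≤
      ((2 : ℝ) ^ k / 4) ^ (2 ^ k) / (4 * (codeLen k : ℝ)) := by
  have hl2 : 0 < Real.log 2 := Real.log_pos (by norm_num)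
  have hcl : (codeLen k : ℝ) ≤ 2 ^ (4 * k + 5) := by
    exact_mod_cast codeLen_le k (by omega)
  have hcl0 : 0 < (codeLen k : ℝ) := by
    have : 0 < codeLen k := by unfold codeLen; omega
    exact_mod_cast this
  rw [le_div_iff₀ (by positivity)]
  have e1 : ((2 : ℝ) ^ k / 4) ^ (2 ^ k) = Real.exp (Real.log 2 * ((k - 2) * 2 ^ k)) := by
    have : ((2 : ℝ) ^ k / 4) = Real.exp (Real.log 2 * (k - 2)) := by
      rw [mul_sub, Real.exp_sub, mul_comm, Real.exp_nat_mul, Real.exp_log (by norm_num),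
        mul_comm, show (2 : ℝ) = ((2 : ℕ) : ℝ) by norm_num, Real.exp_nat_mul]
      norm_num [Real.exp_log]
    rw [this, ← Real.exp_nat_mul]
    congr 1
    push_cast
    ring
  rw [e1]
  have e2 : (4 : ℝ) * codeLen k ≤ Real.exp (Real.log 2 * (4 * k + 7)) := by
    calc (4 : ℝ) * codeLen k ≤ 4 * 2 ^ (4 * k + 5) := by linarith
      _ = 2 ^ (4 * k + 7) := by rw [pow_add, pow_add]; norm_num; ring
      _ = Real.exp (Real.log 2 * (4 * k + 7)) := by
          rw [← Real.rpow_natCast, Real.rpow_def_of_pos (by norm_num)]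
          push_cast
          rfl
  refine (mul_le_mul_of_nonneg_left e2 (Real.exp_pos _).le).trans ?_
  rw [← Real.exp_add]
  apply Real.exp_le_exp.mpr
  rw [← mul_add]
  apply mul_le_mul_of_nonneg_left _ hl2.le
  have h8 : ∀ n : ℕ, 6 ≤ n → 4 * n + 7 ≤ 2 ^ n := by
    intro n hn
    induction n, hn using Nat.le_induction with
    | base => norm_num
    | succ n hn ih => rw [pow_succ]; omega
  have h9 : (4 * (k : ℝ) + 7) ≤ 2 ^ k := by exact_mod_cast h8 k hk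
  have hk6 : (6 : ℝ) ≤ k := by exact_mod_cast hk
  have hpos : (0 : ℝ) < 2 ^ k := by positivity
  nlinarith

end Crest.Agent.R210
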