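import Mathlib

/-!
# Enough small primes: injective family of `2^k * 4^k` odd primes below `2^(4k)`
-/

set_option autoImplicit false

namespace Crest.Agent.R210

open Real

/-- There are more than `8^k` primes up to `16^k`. -/
theorem eight_pow_lt_primeCounting (k : ℕ) (hk : 5 ≤ k) :
    8 ^ k < Nat.primeCounting (16 ^ k) := by
  have h1 := Chebyshev.psi_ge (16 ^ k)
  have h2 := Chebyshev.psi_le_primeCounting_mul_log (16 ^ k)
  have hl2 : 0 < Real.log 2 := Real.log_pos (by norm_num)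
  have hlog : Real.log ((16 ^ k : ℕ) : ℝ) = 4 * k * Real.log 2 := by
    push_cast
    rw [Real.log_pow, show (16 : ℝ) = 2 ^ 4 by norm_num, Real.log_pow]
    push_cast
    ring
  have hlog1 : Real.log (((16 ^ k : ℕ) : ℝ) + 1) ≤ (4 * k + 1) * Real.log 2 := by
    have : Real.log (((16 ^ k : ℕ) : ℝ) + 1) ≤ Real.log ((2 : ℝ) ^ (4 * k + 1)) := by
      apply Real.log_le_log (by positivity)
      push_cast
      rw [pow_add, pow_mul]
      have : (1 : ℝ) ≤ 16 ^ k := one_le_pow₀ (by norm_num)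
      norm_num
      linarith
    rw [Real.log_pow] at this
    push_cast at this ⊢
    exact this
  rw [hlog] at h2
  have h3 : ((16 ^ k : ℕ) : ℝ) * Real.log 2 - (4 * k + 1) * Real.log 2 ≤
      (Nat.primeCounting (16 ^ k) : ℝ) * (4 * k * Real.log 2) := by linarith
  have h4 : ((16 ^ k : ℕ) : ℝ) - (4 * k + 1) ≤
      (Nat.primeCounting (16 ^ k) : ℝ) * (4 * k) := by
    have h5 : (((16 ^ k : ℕ) : ℝ) - (4 * k + 1)) * Real.log 2 ≤
      ((Nat.primeCounting (16 ^ k) : ℝ) * (4 * k)) * Real.log 2 := by linarith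
    exact le_of_mul_le_mul_right h5 hl2
  by_contra hcon
  push Not at hcon
  have h6 : ((16 ^ k : ℕ) : ℝ) - (4 * k + 1) ≤ (8 : ℝ) ^ k * (4 * k) := by
    refine h4.trans ?_
    apply mul_le_mul_of_nonneg_right _ (by positivity)
    exact_mod_cast hcon
  have h7 : (16 ^ k : ℕ) ≤ 8 ^ k * (4 * k) + (4 * k + 1) := by
    have : ((16 ^ k : ℕ) : ℝ) ≤ ((8 ^ k * (4 * k) + (4 * k + 1) : ℕ) : ℝ) := by
      push_cast at h6 ⊢
      linarith
    exact_mod_cast this
  have h8 : ∀ n : ℕ, 5 ≤ n → 4 * n + 2 ≤ 2 ^ n := by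
    intro n hn
    induction n, hn using Nat.le_induction with
    | base => norm_num
    | succ n hn ih => rw [pow_succ]; omega
  have h9 := h8 k hk
  have h10 : (16 : ℕ) ^ k = 8 ^ k * 2 ^ k := by rw [← mul_pow]; norm_num
  have h11 : 8 ^ k * (4 * k + 2) ≤ 8 ^ k * 2 ^ k := Nat.mul_le_mul_left _ h9
  have h12 : 4 * k + 2 ≤ 8 ^ k := h9.trans (Nat.pow_le_pow_left (by norm_num) k)
  rw [h10] at h7
  nlinarith

/-- An explicit injective family of `8^k` odd primes up to `16^k`. -/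
noncomputable def oddPrime (j : ℕ) : ℕ := Nat.nth Nat.Prime (j + 1)

theorem oddPrime_prime (j : ℕ) : (oddPrime j).Prime := Nat.prime_nth_prime _

theorem oddPrime_injective : Function.Injective oddPrime := by
  intro i j h
  have := Nat.nth_injective Nat.infinite_setOfPred_prime h
  omega

theorem two_lt_oddPrime (j : ℕ) : 2 < oddPrime j := by
  have h : Nat.nth Nat.Prime 0 < Nat.nth Nat.Prime (j + 1) :=
    Nat.nth_strictMono Nat.infinite_setOfPred_prime (Nat.succ_pos j)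
  rwa [Nat.nth_prime_zero_eq_two] at h

theorem oddPrime_ne_two (j : ℕ) : oddPrime j ≠ 2 := (two_lt_oddPrime j).ne'

theorem oddPrime_le {k : ℕ} (hk : 5 ≤ k) {j : ℕ} (hj : j < 8 ^ k) : oddPrime j ≤ 16 ^ k := by
  have h := eight_pow_lt_primeCounting k hk
  have h2 : j + 1 < Nat.count Nat.Prime (16 ^ k + 1) := by
    have : Nat.primeCounting (16 ^ k) = Nat.count Nat.Prime (16 ^ k + 1) := rfl
    omega
  have h3 := Nat.nth_lt_of_lt_count h2
  unfold oddPrime
  omega

/-- The primes `q(r,i)` for `r < 2^k`, `i < 4^k`. -/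
theorem exists_primes : ∃ k₀ : ℕ, ∀ k ≥ k₀, ∃ q : ℕ → ℕ → ℕ,
    (∀ r i, r < 2 ^ k → i < 4 ^ k → (q r i).Prime ∧ q r i ≠ 2 ∧ q r i ≤ 2 ^ (4 * k)) ∧
    (∀ r i r' i', r < 2 ^ k → i < 4 ^ k → r' < 2 ^ k → i' < 4 ^ k →
      q r i = q r' i' → r = r' ∧ i = i') := by
  refine ⟨5, fun k hk => ⟨fun r i => oddPrime (r * 4 ^ k + i), ?_, ?_⟩⟩
  · intro r i hr hi
    refine ⟨oddPrime_prime _, oddPrime_ne_two _, ?_⟩
    rw [pow_mul]
    apply oddPrime_le hk
    have h8 : (8 : ℕ) ^ k = 2 ^ k * 4 ^ k := by rw [← mul_pow]; norm_num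
    rw [h8]
    calc r * 4 ^ k + i < r * 4 ^ k + 4 ^ k := by omega
      _ = (r + 1) * 4 ^ k := by ring
      _ ≤ 2 ^ k * 4 ^ k := Nat.mul_le_mul_right _ hr
  · intro r i r' i' _ hi _ hi' h
    have h1 := oddPrime_injective h
    have hpos : 0 < 4 ^ k := by positivity
    have hr : (r * 4 ^ k + i) / 4 ^ k = r := by
      rw [Nat.add_comm, Nat.add_mul_div_right _ _ hpos, Nat.div_eq_of_lt hi, zero_add]
    have hr' : (r' * 4 ^ k + i') / 4 ^ k = r' := by
      rw [Nat.add_comm, Nat.add_mul_div_right _ _ hpos, Nat.div_eq_of_lt hi', zero_add]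
    have : r = r' := by rw [← hr, ← hr', h1]
    subst this
    exact ⟨rfl, by omega⟩

end Crest.Agent.R210
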