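import Mathlib
import Crest.Prelude.Def_EditDistance
import Crest.Agent.R210.Final
import Crest.Agent.R210.Params
import Crest.Agent.R210.Primes

/-!
# The main theorem: assembly
-/

set_option autoImplicit false
open Crest.GeometryTopology.EditDistance

namespace Crest.Agent.R210

theorem tower_exists {t m b B W Q N : ℕ} (q : ℕ → ℕ → ℕ)
    (hN : N = 2 * ∏ r ∈ Finset.range t, ∏ i ∈ Finset.range m, q r i) (hm : 6 ≤ m)
    (hprime : ∀ r i, r < t → i < m → (q r i).Prime ∧ q r i ≠ 2 ∧ q r i ≤ Q)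
    (hinj : ∀ r i r' i', r < t → i < m → r' < t → i' < m →
      q r i = q r' i' → r = r' ∧ i = i')
    (hb : b ≤ 2 ^ (m / 2)) (hW : 2 ≤ W) (hB : 4 * Q ^ (t + W) ≤ B)
    (hbB : 8 * B * W ^ t ≤ b) :
    ∃ (S : Type) (_ : Fintype S) (C : ℝ), Fintype.card S = m ^ t * N ∧ 0 < C ∧
      C ≤ (1 / (W : ℝ)) ^ t ∧ Nonempty (Lvl S N 2 ((b * m) ^ t) ((1 / 4) ^ t) C) := by
  have hN0 : N ≠ 0 := by
    rw [hN]
    have : 0 < ∏ r ∈ Finset.range t, ∏ i ∈ Finset.range m, q r i :=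
      Finset.prod_pos fun r hr => Finset.prod_pos fun i hi =>
        (hprime r i (Finset.mem_range.mp hr) (Finset.mem_range.mp hi)).1.pos
    omega
  have hdvd : ∀ r i, r < t → i < m → q r i ∣ N := by
    intro r i hr hi
    rw [hN]
    apply Dvd.dvd.mul_left
    exact (Finset.dvd_prod_of_mem (fun i => q r i) (Finset.mem_range.mpr hi)).trans
      (Finset.dvd_prod_of_mem (fun r => ∏ i ∈ Finset.range m, q r i) (Finset.mem_range.mpr hr))
  have hWt : 1 ≤ W ^ t := Nat.one_le_pow _ _ (by omega)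
  have hBb : B ≤ b := by nlinarith
  have hW0 : (0 : ℝ) < W := by
    have : 0 < W := by omega
    exact_mod_cast this
  have hW2 : (2 : ℝ) ≤ W := by exact_mod_cast hW
  have key : ∀ r, r ≤ t → ∃ (S : Type) (_ : Fintype S) (C : ℝ),
      Fintype.card S = m ^ r * N ∧ 0 < C ∧ C ≤ (1 / (W : ℝ)) ^ r / 2 + 4 * (B : ℝ) / b ∧
      ∀ M, M ∣ N → (∀ r' < r, ∀ i < m, Nat.Coprime M (q r' i)) → M * Q ^ r ≤ 2 * Q ^ t →
        Nonempty (Lvl S N M ((b * m) ^ r) ((1 / 4) ^ r) C) := by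
    intro r
    induction r with
    | zero =>
      intro _
      have : NeZero N := ⟨hN0⟩
      refine ⟨ZMod N, inferInstance, 1 / 2, by simp [ZMod.card], by norm_num, ?_, ?_⟩
      · have : (0 : ℝ) ≤ 4 * (B : ℝ) / b := by positivity
        simp only [pow_zero]
        linarith
      · intro M _ _ _
        simpa using Lvl.base N M hN0
    | succ r ih =>
      intro hr
      have hrt : r < t := by omega
      obtain ⟨S, hS, C, hcard, hC0, hC, hlvl⟩ := ih (by omega)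
      have hQ1 : 1 ≤ Q := by
        obtain ⟨h1, _, h3⟩ := hprime r 0 hrt (by omega)
        exact le_trans h1.one_lt.le h3
      refine ⟨Fin m × S, inferInstance, C / W + 2 * B / b, ?_, ?_, ?_, ?_⟩
      · rw [Fintype.card_prod, Fintype.card_fin, hcard, pow_succ]
        ring
      · positivity
      · have h1 : C / W ≤ ((1 / (W : ℝ)) ^ r / 2 + 4 * (B : ℝ) / b) / W := by gcongr
        have h2 : ((1 / (W : ℝ)) ^ r / 2 + 4 * (B : ℝ) / b) / W
            = (1 / (W : ℝ)) ^ (r + 1) / 2 + 4 * (B : ℝ) / b / W := by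
          rw [pow_succ]; ring
        have h3 : 4 * (B : ℝ) / b / W ≤ 4 * (B : ℝ) / b / 2 := by
          apply div_le_div_of_nonneg_left (by positivity) (by norm_num) hW2
        have h4 : 4 * (B : ℝ) / b / 2 + 2 * B / b = 4 * B / b := by ring
        linarith
      · intro M hMN hMc hMQ
        have hstep := Lvl.step (α := S) (N := N) (M := M) (L := (b * m) ^ r) (m := m) (b := b)
          (B := B) (W := W) (Q := Q) (κ := (1 / 4) ^ r) (C := C) (q r) hN0 hm (by positivity)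
          (pow_le_one₀ (by norm_num) (by norm_num))
          (fun i hi => (hprime r i hrt hi).1)
          (fun i hi j hj h => (hinj r i r j hrt hi hrt hj h).2)
          (fun i hi => hMc r (by omega) i hi)
          (fun i hi => Nat.Coprime.mul_dvd_of_dvd_of_dvd (hMc r (by omega) i hi) hMN
            (hdvd r i hrt hi))
          hb hBb (fun i hi => (hprime r i hrt hi).2.2) (by omega) ?_ ?_
        · have e1 : (b * m) ^ (r + 1) = b * (m * (b * m) ^ r) := by rw [pow_succ]; ring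
          have e2 : ((1 : ℝ) / 4) ^ (r + 1) = (1 / 4) ^ r / 4 := by rw [pow_succ]; ring
          rw [e1, e2]
          exact hstep
        · have h1 : M ≤ M * Q ^ (r + 1) := Nat.le_mul_of_pos_right _ (Nat.pow_pos (by omega))
          calc 2 * (M * Q ^ W) ≤ 2 * ((2 * Q ^ t) * Q ^ W) := by gcongr; exact h1.trans hMQ
            _ = 4 * Q ^ (t + W) := by rw [pow_add]; ring
            _ ≤ B := hB
        · intro i hi
          obtain ⟨hp1, hp2, hp3⟩ := hprime r i hrt hi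
          apply hlvl
          · exact Nat.Coprime.mul_dvd_of_dvd_of_dvd (hMc r (by omega) i hi) hMN
              (hdvd r i hrt hi)
          · intro r' hr' i' hi'
            apply Nat.Coprime.mul_left (hMc r' (by omega) i' hi')
            obtain ⟨hp1', _, _⟩ := hprime r' i' (by omega) hi'
            rw [Nat.coprime_primes hp1 hp1']
            intro h
            have := (hinj r i r' i' hrt hi (by omega) hi' h).1
            omega
          · calc M * q r i * Q ^ r ≤ M * Q * Q ^ r := by gcongr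
              _ = M * Q ^ (r + 1) := by rw [pow_succ]; ring
              _ ≤ _ := hMQ
  obtain ⟨S, hS, C, hcard, hC0, hC, hlvl⟩ := key t le_rfl
  refine ⟨S, hS, C, hcard, hC0, ?_, hlvl 2 ⟨_, hN⟩ ?_ le_rfl⟩
  · refine hC.trans ?_
    have h1 : 4 * (B : ℝ) / b ≤ (1 / (W : ℝ)) ^ t / 2 := by
      rcases Nat.eq_zero_or_pos b with h0 | h0
      · rw [h0]
        simp only [Nat.cast_zero, div_zero]
        positivity
      · have h0' : (0 : ℝ) < b := by exact_mod_cast h0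
        rw [div_le_iff₀ h0', one_div, inv_pow]
        have h2 : (8 * B * W ^ t : ℝ) ≤ b := by exact_mod_cast hbB
        have h3 : (0 : ℝ) < (W : ℝ) ^ t := by positivity
        rw [div_mul_eq_mul_div, le_div_iff₀ (by norm_num), inv_mul_eq_div, le_div_iff₀ h3]
        linarith
    linarith
  · intro r hr i hi
    obtain ⟨hp1, hp2, _⟩ := hprime r i hr hi
    exact (Nat.coprime_primes Nat.prime_two hp1).mpr (Ne.symm hp2)

theorem main_k : ∃ k₀ : ℕ, ∀ k ≥ k₀, ∀ (f : List Bool → lp (fun _ : ℕ => ℝ) 1) (s D : ℝ), 0 < s →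
    (∀ x y : List Bool,
      x.length = codeLen k * ((2 ^ (5 + 9 * k * 2 ^ k)) * 4 ^ k) ^ (2 ^ k) →
      y.length = codeLen k * ((2 ^ (5 + 9 * k * 2 ^ k)) * 4 ^ k) ^ (2 ^ k) → x ≠ y →
      s * (editDist x y : ℝ) ≤ ‖f x - f y‖ ∧ ‖f x - f y‖ ≤ D * s * (editDist x y : ℝ)) →
    ((2 : ℝ) ^ k / 4) ^ (2 ^ k) / (4 * (codeLen k : ℝ)) ≤ D := by
  obtain ⟨k₁, hk₁⟩ := exists_primes
  refine ⟨max k₁ 7, fun k hk f s D hs hf => ?_⟩
  have hk1 : k₁ ≤ k := le_trans (le_max_left _ _) hk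
  have hk7 : 7 ≤ k := le_trans (le_max_right _ _) hk
  obtain ⟨q, hq, hqinj⟩ := hk₁ k hk1
  set N := 2 * ∏ r ∈ Finset.range (2 ^ k), ∏ i ∈ Finset.range (4 ^ k), q r i with hN
  have hm : 6 ≤ 4 ^ k := le_trans (by norm_num) (Nat.pow_le_pow_right (by norm_num) hk7)
  have hbm : 2 ^ (5 + 9 * k * 2 ^ k) ≤ 2 ^ (4 ^ k / 2) := by
    apply Nat.pow_le_pow_right (by norm_num)
    -- 5 + 9 k 2^k ≤ 4^k / 2
    have h2 : 18 * k + 1 ≤ 2 ^ k := by
      have : ∀ j, 7 ≤ j → 18 * j + 2 ≤ 2 ^ j := by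
        intro j hj
        induction j, hj using Nat.le_induction with
        | base => norm_num
        | succ j hj ih => rw [pow_succ]; omega
      have := this k hk7
      omega
    have h3 : 4 ^ k = 2 ^ k * 2 ^ k := by rw [← mul_pow]; norm_num
    rw [h3, Nat.le_div_iff_mul_le (by norm_num)]
    have h4 : 128 ≤ 2 ^ k := le_trans (by norm_num) (Nat.pow_le_pow_right (by norm_num : 0 < 2) hk7)
    nlinarith
  have hB : 4 * (2 ^ (4 * k)) ^ (2 ^ k + 2 ^ k) ≤ 2 ^ (2 + 8 * k * 2 ^ k) := by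
    rw [← pow_mul, show (4 : ℕ) = 2 ^ 2 by norm_num, ← pow_add]
    apply Nat.pow_le_pow_right (by norm_num)
    apply le_of_eq
    ring
  have hbB : 8 * 2 ^ (2 + 8 * k * 2 ^ k) * (2 ^ k) ^ (2 ^ k) ≤ 2 ^ (5 + 9 * k * 2 ^ k) := by
    rw [← pow_mul, show (8 : ℕ) = 2 ^ 3 by norm_num, ← pow_add, ← pow_add]
    apply Nat.pow_le_pow_right (by norm_num)
    apply le_of_eq
    ring
  obtain ⟨S, hS, C, hcard, hC0, hC, ⟨Lv⟩⟩ := tower_exists (t := 2 ^ k) (m := 4 ^ k)
    (b := 2 ^ (5 + 9 * k * 2 ^ k)) (B := 2 ^ (2 + 8 * k * 2 ^ k)) (W := 2 ^ k)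
    (Q := 2 ^ (4 * k)) (N := N) q hN hm hq hqinj hbm
    (le_trans (by norm_num) (Nat.pow_le_pow_right (by norm_num : 0 < 2) hk7)) hB hbB
  have hprod0 : 0 < ∏ r ∈ Finset.range (2 ^ k), ∏ i ∈ Finset.range (4 ^ k), q r i :=
    Finset.prod_pos fun r hr => Finset.prod_pos fun i hi =>
      (hq r i (Finset.mem_range.mp hr) (Finset.mem_range.mp hi)).1.pos
  have hprodle : ∏ r ∈ Finset.range (2 ^ k), ∏ i ∈ Finset.range (4 ^ k), q r i
      ≤ 2 ^ (4 * k * 8 ^ k) := by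
    calc ∏ r ∈ Finset.range (2 ^ k), ∏ i ∈ Finset.range (4 ^ k), q r i
        ≤ ∏ r ∈ Finset.range (2 ^ k), ∏ i ∈ Finset.range (4 ^ k), 2 ^ (4 * k) :=
          Finset.prod_le_prod' fun r hr => Finset.prod_le_prod' fun i hi =>
            (hq r i (Finset.mem_range.mp hr) (Finset.mem_range.mp hi)).2.2
      _ = 2 ^ (4 * k * 8 ^ k) := by
          simp only [Finset.prod_const, Finset.card_range]
          rw [← pow_mul, ← pow_mul]
          congr 1
          rw [mul_assoc, ← mul_pow, mul_assoc]; norm_num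
  have hcard' : Fintype.card S ≤ 2 ^ (2 * k * 2 ^ k + 1 + 4 * k * 8 ^ k) := by
    rw [hcard, hN]
    calc (4 ^ k) ^ 2 ^ k * (2 * ∏ r ∈ Finset.range (2 ^ k), ∏ i ∈ Finset.range (4 ^ k), q r i)
        ≤ (4 ^ k) ^ 2 ^ k * (2 * 2 ^ (4 * k * 8 ^ k)) := by gcongr
      _ = 2 ^ (2 * k * 2 ^ k + 1 + 4 * k * 8 ^ k) := by
          rw [show (4 : ℕ) = 2 ^ 2 by norm_num, ← pow_mul, ← pow_mul, pow_add, pow_add]
          ring
  have hfin := final_of_lvl (N := N) (h := 2 * k * 2 ^ k + 1 + 4 * k * 8 ^ k) ⟨_, hN⟩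
    (by rw [hN]; positivity) hcard' (by positivity) hC0 (by positivity) Lv f s D hs hf
  refine le_trans ?_ hfin
  have hcl : ((2 * (2 * k * 2 ^ k + 1 + 4 * k * 8 ^ k) + 3 : ℕ) : ℝ) = (codeLen k : ℝ) := rfl
  rw [hcl]
  have hcl0 : (0 : ℝ) < codeLen k := by
    have : 0 < codeLen k := by unfold codeLen; omega
    exact_mod_cast this
  have h1 : ((2 : ℝ) ^ k / 4) ^ (2 ^ k) = (1 / 4) ^ (2 ^ k) / (1 / ((2 ^ k : ℕ) : ℝ)) ^ (2 ^ k) := by
    rw [← div_pow]
    congr 1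
    push_cast
    field_simp
  rw [h1, div_div]
  apply div_le_div_of_nonneg_left (by positivity) (by positivity)
  rw [mul_comm]
  gcongr

theorem main :
    ∃ c : ℝ, 0 < c ∧ ∃ d₀ : ℕ, ∀ d : ℕ, d₀ ≤ d → ∃ n : ℕ, n ≤ d ∧
      ∀ (f : List Bool → lp (fun _ : ℕ => ℝ) 1) (s D : ℝ), 0 < s →
        (∀ x y : List Bool, x.length = n → y.length = n → x ≠ y →
          s * (editDist x y : ℝ) ≤ ‖f x - f y‖ ∧ ‖f x - f y‖ ≤ D * s * (editDist x y : ℝ)) →
        Real.exp (c * Real.sqrt (Real.log d * Real.log (Real.log d))) ≤ D := by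
  obtain ⟨k₀, hk₀⟩ := main_k
  obtain ⟨c, hc, d₀, hd₀⟩ := params_asymp
    (fun k => codeLen k * ((2 ^ (5 + 9 * k * 2 ^ k)) * 4 ^ k) ^ (2 ^ k))
    (fun k => ((2 : ℝ) ^ k / 4) ^ (2 ^ k) / (4 * (codeLen k : ℝ))) (max k₀ 6) 25
    (fun k hk => params_len k (le_trans (by norm_num) (le_trans (le_max_right _ _) hk)))
    (fun k hk => params_dist k (le_trans (le_max_right _ _) hk))
  refine ⟨c, hc, d₀, fun d hd => ?_⟩
  obtain ⟨k, hk, hkn, hkE⟩ := hd₀ d hd
  refine ⟨_, hkn, fun f s D hs hf => le_trans hkE ?_⟩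
  exact hk₀ k (le_trans (le_max_left _ _) hk) f s D hs hf

end Crest.Agent.R210
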