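import Mathlib
import Crest.Prelude.Def_EditDistance
import Crest.Agent.R210.Level

/-!
# The tower: iterating `Lvl.step`
-/

set_option autoImplicit false
open Crest.GeometryTopology.EditDistance

namespace Crest.Agent.R210

/-- The alphabet of height `r`. -/
def Alph (m N : ℕ) : ℕ → Type
  | 0 => ZMod N
  | r + 1 => Fin m × Alph m N r

@[instance_reducible]
noncomputable def alphFintype (m N : ℕ) [NeZero N] : ∀ r, Fintype (Alph m N r)
  | 0 => (inferInstance : Fintype (ZMod N))
  | r + 1 => by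
      have := alphFintype m N r
      exact (inferInstance : Fintype (Fin m × Alph m N r))

theorem card_alph (m N : ℕ) [NeZero N] (r : ℕ) :
    @Fintype.card (Alph m N r) (alphFintype m N r) = m ^ r * N := by
  induction r with
  | zero =>
    rw [pow_zero, one_mul]
    exact ZMod.card N
  | succ r ih =>
    have := alphFintype m N r
    have h : @Fintype.card (Alph m N (r + 1)) (alphFintype m N (r + 1))
        = @Fintype.card (Fin m) _ * @Fintype.card (Alph m N r) (alphFintype m N r) :=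
      @Fintype.card_prod (Fin m) (Alph m N r) _ (alphFintype m N r)
    rw [h, ih, Fintype.card_fin, pow_succ]
    ring

/-- The cost constants. -/
noncomputable def cc (W B b : ℕ) : ℕ → ℝ
  | 0 => 1 / 2
  | r + 1 => cc W B b r / W + 2 * B / b

theorem cc_pos (W B b : ℕ) (hW : 0 < W) (r : ℕ) : 0 < cc W B b r := by
  induction r with
  | zero => norm_num [cc]
  | succ r ih =>
    have : (0 : ℝ) < W := by exact_mod_cast hW
    unfold cc
    positivity

theorem cc_le (W B b : ℕ) (hW : 2 ≤ W) (r : ℕ) :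
    cc W B b r ≤ (1 / (W : ℝ)) ^ r / 2 + 4 * B / b := by
  have hW' : (2 : ℝ) ≤ W := by exact_mod_cast hW
  have hW0 : (0 : ℝ) < W := by linarith
  have hx : (0 : ℝ) ≤ (B : ℝ) / b := by positivity
  induction r with
  | zero =>
    simp only [cc, pow_zero]
    have : (4 : ℝ) * B / b = 4 * (B / b) := by ring
    rw [this]; linarith
  | succ r ih =>
    unfold cc
    have h1 : cc W B b r / W ≤ ((1 / (W : ℝ)) ^ r / 2 + 4 * B / b) / W :=
      div_le_div_of_nonneg_right ih hW0.le
    have h2 : ((1 / (W : ℝ)) ^ r / 2 + 4 * B / b) / W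
        = (1 / (W : ℝ)) ^ (r + 1) / 2 + (4 * (B / b)) / W := by
      rw [pow_succ]; field_simp
    have h3 : (4 * ((B : ℝ) / b)) / W ≤ 2 * (B / b) := by
      rw [div_le_iff₀ hW0]
      nlinarith
    have h4 : (2 : ℝ) * B / b = 2 * (B / b) := by ring
    have h5 : (4 : ℝ) * B / b = 4 * (B / b) := by ring
    rw [h4, h5]
    rw [h2] at h1
    linarith

theorem cc_final (W B b t : ℕ) (hW : 2 ≤ W) (hbB : 8 * B * W ^ t ≤ b) :
    cc W B b t ≤ (1 / (W : ℝ)) ^ t := by
  have h := cc_le W B b hW t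
  have hW0 : (0 : ℝ) < W := by
    have : 0 < W := by omega
    exact_mod_cast this
  have h1 : 4 * (B : ℝ) / b ≤ (1 / (W : ℝ)) ^ t / 2 := by
    rcases Nat.eq_zero_or_pos b with hb | hb
    · subst hb
      simp only [Nat.cast_zero, div_zero]
      positivity
    · have hb' : (0 : ℝ) < b := by exact_mod_cast hb
      have h2 : (8 : ℝ) * B * W ^ t ≤ b := by exact_mod_cast hbB
      rw [div_le_iff₀ hb', div_pow, one_pow]
      have h3 : (0 : ℝ) < (W : ℝ) ^ t := by positivity
      rw [div_div, div_mul_eq_mul_div, one_mul, le_div_iff₀ (by positivity)]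
      linarith
  linarith

theorem tower_aux {t m b B W Q N : ℕ} (q : ℕ → ℕ → ℕ)
    (hN : N = 2 * ∏ r ∈ Finset.range t, ∏ i ∈ Finset.range m, q r i) (hm : 6 ≤ m)
    (hprime : ∀ r i, r < t → i < m → (q r i).Prime ∧ q r i ≠ 2 ∧ q r i ≤ Q)
    (hinj : ∀ r i r' i', r < t → i < m → r' < t → i' < m →
      q r i = q r' i' → r = r' ∧ i = i')
    (hb : b ≤ 2 ^ (m / 2)) (hW : 2 ≤ W) (hB : 4 * Q ^ (t + W) ≤ B)
    (hbB : 8 * B * W ^ t ≤ b) (r : ℕ) (hr : r ≤ t) :
    ∀ M : ℕ, M ∣ 2 * ∏ s ∈ Finset.Ico r t, ∏ i ∈ Finset.range m, q s i →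
      M ≤ 2 * Q ^ (t - r) →
      Nonempty (Lvl (Alph m N r) N M ((b * m) ^ r) ((1 / 4) ^ r) (cc W B b r)) := by
  have hN0 : N ≠ 0 := by
    rw [hN]
    refine mul_ne_zero two_ne_zero (Finset.prod_ne_zero_iff.2 fun s hs => ?_)
    exact Finset.prod_ne_zero_iff.2 fun i hi =>
      (hprime s i (Finset.mem_range.1 hs) (Finset.mem_range.1 hi)).1.ne_zero
  induction r with
  | zero =>
    intro M _ _
    have := Lvl.base N M hN0
    simpa [Alph, cc] using this
  | succ r ih =>
    intro M hM hMQ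
    have hrt : r < t := hr
    have ih' := ih hrt.le
    have hq2 : ∀ i < m, (q r i).Prime := fun i hi => (hprime r i hrt hi).1
    have hIco : Finset.Ico r t = insert r (Finset.Ico (r + 1) t) := by
      ext x
      simp only [Finset.mem_insert, Finset.mem_Ico]
      omega
    have hprodIco : ∏ s ∈ Finset.Ico r t, ∏ i ∈ Finset.range m, q s i
        = (∏ i ∈ Finset.range m, q r i) *
          ∏ s ∈ Finset.Ico (r + 1) t, ∏ i ∈ Finset.range m, q s i := by
      rw [hIco, Finset.prod_insert (by simp)]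
    have hchildDvd : ∀ i < m, M * q r i ∣
        2 * ∏ s ∈ Finset.Ico r t, ∏ i ∈ Finset.range m, q s i := by
      intro i hi
      rw [hprodIco]
      have h1 : q r i ∣ ∏ i ∈ Finset.range m, q r i :=
        Finset.dvd_prod_of_mem _ (Finset.mem_range.2 hi)
      have h2 := mul_dvd_mul hM h1
      refine h2.trans (dvd_of_eq ?_)
      ring
    have hIcoN : (2 * ∏ s ∈ Finset.Ico r t, ∏ i ∈ Finset.range m, q s i) ∣ N := by
      rw [hN]
      refine mul_dvd_mul_left 2 (Finset.prod_dvd_prod_of_subset _ _ _ ?_)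
      intro s hs
      rw [Finset.mem_Ico] at hs
      exact Finset.mem_range.2 hs.2
    have hcop : ∀ i < m, Nat.Coprime M (q r i) := by
      intro i hi
      refine Nat.Coprime.coprime_dvd_left hM ?_
      refine Nat.Coprime.mul_left ?_ ?_
      · exact (Nat.coprime_primes Nat.prime_two (hq2 i hi)).2
          (Ne.symm (hprime r i hrt hi).2.1)
      · refine Nat.Coprime.prod_left fun s hs => Nat.Coprime.prod_left fun j hj => ?_
        rw [Finset.mem_Ico] at hs
        rw [Finset.mem_range] at hj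
        refine (Nat.coprime_primes (hprime s j hs.2 hj).1 (hq2 i hi)).2 fun he => ?_
        have := (hinj s j r i hs.2 hj hrt hi he).1
        omega
    have hQ1 : 1 ≤ Q := by
      have h := (hprime r 0 hrt (by omega))
      exact h.1.one_lt.le.trans h.2.2
    have hBpos : 0 < B := lt_of_lt_of_le (by positivity) hB
    have hBb : B ≤ b := by
      refine le_trans ?_ hbB
      have hWt : 1 ≤ W ^ t := Nat.one_le_pow _ _ (by omega)
      nlinarith
    have hB' : 2 * (M * Q ^ W) ≤ B := by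
      calc 2 * (M * Q ^ W) ≤ 2 * ((2 * Q ^ (t - (r + 1))) * Q ^ W) := by gcongr
        _ = 4 * Q ^ (t - (r + 1) + W) := by rw [pow_add]; ring
        _ ≤ 4 * Q ^ (t + W) := by
            refine Nat.mul_le_mul_left 4 (Nat.pow_le_pow_right hQ1 ?_)
            omega
        _ ≤ B := hB
    have hstep := Lvl.step (α := Alph m N r) (N := N) (M := M) (L := (b * m) ^ r) (m := m) (b := b)
      (B := B) (W := W) (Q := Q) (κ := (1 / 4 : ℝ) ^ r) (C := cc W B b r) (q r) hN0 hm
      (by positivity) (pow_le_one₀ (by norm_num) (by norm_num)) hq2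
      (fun i hi j hj h => (hinj r i r j hrt hi hrt hj h).2) hcop
      (fun i hi => (hchildDvd i hi).trans hIcoN) hb hBb
      (fun i hi => (hprime r i hrt hi).2.2) (by omega) hB'
      (fun i hi => ih' (M * q r i) (hchildDvd i hi) (by
        calc M * q r i ≤ (2 * Q ^ (t - (r + 1))) * Q :=
              Nat.mul_le_mul hMQ (hprime r i hrt hi).2.2
          _ = 2 * Q ^ (t - (r + 1) + 1) := by rw [pow_succ]; ring
          _ = 2 * Q ^ (t - r) := by congr 2; omega))
    have e1 : b * (m * (b * m) ^ r) = (b * m) ^ (r + 1) := by rw [pow_succ]; ring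
    have e2 : (1 / 4 : ℝ) ^ r / 4 = (1 / 4) ^ (r + 1) := by rw [pow_succ]; ring
    rw [e1, e2] at hstep
    exact hstep

theorem tower_exists {t m b B W Q N : ℕ} (q : ℕ → ℕ → ℕ)
    (hN : N = 2 * ∏ r ∈ Finset.range t, ∏ i ∈ Finset.range m, q r i) (hm : 6 ≤ m)
    (hprime : ∀ r i, r < t → i < m → (q r i).Prime ∧ q r i ≠ 2 ∧ q r i ≤ Q)
    (hinj : ∀ r i r' i', r < t → i < m → r' < t → i' < m →
      q r i = q r' i' → r = r' ∧ i = i')
    (hb : b ≤ 2 ^ (m / 2)) (hW : 2 ≤ W) (hB : 4 * Q ^ (t + W) ≤ B)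
    (hbB : 8 * B * W ^ t ≤ b) :
    ∃ (S : Type) (_ : Fintype S) (C : ℝ), Fintype.card S = m ^ t * N ∧ 0 < C ∧
      C ≤ (1 / (W : ℝ)) ^ t ∧ Nonempty (Lvl S N 2 ((b * m) ^ t) ((1 / 4) ^ t) C) := by
  have hN0 : N ≠ 0 := by
    rw [hN]
    refine mul_ne_zero two_ne_zero (Finset.prod_ne_zero_iff.2 fun s hs => ?_)
    exact Finset.prod_ne_zero_iff.2 fun i hi =>
      (hprime s i (Finset.mem_range.1 hs) (Finset.mem_range.1 hi)).1.ne_zero
  have : NeZero N := ⟨hN0⟩
  exact ⟨Alph m N t, alphFintype m N t, cc W B b t, card_alph m N t, cc_pos W B b (by omega) t,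
    cc_final W B b t hW hbB,
    tower_aux q hN hm hprime hinj hb hW hB hbB t le_rfl 2 (by simp) (by simp)⟩

end Crest.Agent.R210
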